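import Claimed.Agent.R316.Base.Tub.Inv
import Claimed.Agent.R316.Pack003

/-!
# `BP-G3` part 2: smooth maps and smooth tangent fields on a `CMfd`; their flows

* `𝓜.SmoothMap u` : vector valued smooth map on the manifold; global smooth extension to `V`.
* `coField Φ X` : coordinate components of the ambient tangent field `X` in the parametrisation `Φ`.
* `𝓜.SmoothField X` : smooth tangent field in ambient representation (`X x ∈ T_x M ⊆ V`).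
* THE FLOW of `X` is `ODE.fl X 𝓜.carrier` with domain `ODE.dom X 𝓜.carrier` (time first).  Its general
  properties are those of `Tub.TanField` (`Inv.lean`) through `CMfd.SmoothField.tanField`.
* `flDom`, `flCo` : the flow read in two parametrisations; smoothness, time derivative, variational
  equation.

PLANS.
* section 1: `coVec Φ z (dΦ_z a) = a` (`IsParam.coVec_fderiv`), `CMfd.fderiv_eq_comp_trans`,
  `CMfd.coVec_trans`, `CMfd.trans_contDiffOn`; holomorphic implies smooth: `CW/HolSmooth.lean`.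
* `SmoothMap.locExt`: `IsParam.exists_smooth_leftInverse` gives `O, ρ`; `g = u ∘ Φ ∘ ρ` on
  `O ∩ ρ ⁻¹' U` (an open set after shrinking).
* `SmoothField.locInt`: `a = coField Φ X` is smooth on the open `U`: `ODE.exists_pos_forall_mem_dom`
  for `K = {z}`, `c r = Φ (fl a U r z)`, `ODE.hasDerivAt_fl`, chain rule.
* `fl_param`: `TanField.fl_map` with `θ = Φ`.  `mem_dom_param`: `c r = Φ⁻¹ (fl X M r (Φ z))` is
  differentiable (`IsParam.hasFDerivAt_invFunOn_comp`; at the end points of the segment use that the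
  time interval of the flow line is open) and solves the chart equation (injectivity of `dΦ`).
* `isOpen_flDom`, `contDiffOn_flCo`: `TanField.exists_contDiffOn` gives `D, G`; `flDom` is the preimage
  of `D ∩ G ⁻¹' O'` (`Ψ '' W = M ∩ O'`) under `(t, z) ↦ (t, Φ z)`; `IsParam.contDiffAt_invFunOn_comp`.
* `hasDerivAt_fderiv_flCo`: as `ODE.hasDerivAt_fderiv_fl` (symmetry of the second derivative).
* `injective_fderiv_flCo`: `fl (-t) ∘ fl t = id`, chain rule in parametrisations.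

Leaves: `G3-FIELD-A` (sections 1, 2), `G3-FIELD-B` (section 3).
-/

set_option autoImplicit false
open scoped ContDiff ComplexOrder Topology

namespace Claimed.Agent.R316

open Claimed.Agent.R316.ODE Claimed.Agent.R316.Tub

variable {V : Type} [NormedAddCommGroup V] [NormedSpace ℝ V]
variable {ι : Type} [Fintype ι] [DecidableEq ι]

/-! ### 1. smooth maps and fields -/

/-- smooth map from the manifold into a normed space. -/
def CMfd.SmoothMap {F : Type} [NormedAddCommGroup F] [NormedSpace ℝ F] (𝓜 : CMfd V ι)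
    (u : V → F) : Prop :=
  ∀ (Φ : CE ι → V) (U : Set (CE ι)), 𝓜.IsHol Φ U → ContDiffOn ℝ ∞ (u ∘ Φ) U

/-- coordinate components of the ambient tangent field `X` in the parametrisation `Φ`. -/
noncomputable def coField (Φ : CE ι → V) (X : V → V) (z : CE ι) : CE ι := coVec Φ z (X (Φ z))

/-- smooth tangent vector field, in ambient representation. -/
def CMfd.SmoothField (𝓜 : CMfd V ι) (X : V → V) : Prop :=
  ∀ (Φ : CE ι → V) (U : Set (CE ι)), 𝓜.IsHol Φ U →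
    ContDiffOn ℝ ∞ (coField Φ X) U ∧ ∀ z ∈ U, X (Φ z) = fderiv ℝ Φ z (coField Φ X z)

section basic

variable {𝓜 : CMfd V ι} {X Y : V → V} {Φ Ψ : CE ι → V} {U W : Set (CE ι)} {z : CE ι}

theorem coField_eq (hΦ : 𝓜.IsHol Φ U) (hz : z ∈ U) {a : CE ι} (h : X (Φ z) = fderiv ℝ Φ z a) :
    coField Φ X z = a := by
  unfold coField
  rw [h]
  exact (𝓜.isParam hΦ).coVec_fderiv hz a

/-- it is enough to find smooth components in parametrisations covering the manifold. -/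
theorem CMfd.smoothField_of_cover [FiniteDimensional ℝ V]
    (h : ∀ x ∈ 𝓜.carrier, ∃ (Φ : CE ι → V) (U : Set (CE ι)) (a : CE ι → CE ι), 𝓜.IsHol Φ U ∧
      x ∈ Φ '' U ∧ ContDiffOn ℝ ∞ a U ∧ ∀ z ∈ U, X (Φ z) = fderiv ℝ Φ z (a z)) :
    𝓜.SmoothField X := by
  intro Ψ W hΨ
  -- local description near each point
  have key : ∀ w ∈ W, ∃ b : CE ι → CE ι, ContDiffAt ℝ ∞ b w ∧
      ∀ᶠ w' in 𝓝 w, w' ∈ W ∧ X (Ψ w') = fderiv ℝ Ψ w' (b w') := by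
    intro w hw
    obtain ⟨Φ, U, a, hΦ, hx, ha, hX⟩ := h (Ψ w) (CMfd.mem_carrier hΨ hw)
    have hw' : w ∈ W ∩ Ψ ⁻¹' (Φ '' U) := ⟨hw, hx⟩
    have hτw := CMfd.trans_mapsTo hΨ hΦ hw'
    refine ⟨fun w' => fderiv ℝ (Function.invFunOn Ψ W ∘ Φ) ((Function.invFunOn Φ U ∘ Ψ) w')
      (a ((Function.invFunOn Φ U ∘ Ψ) w')), ?_, ?_⟩
    · have h1 : ContDiffAt ℝ ∞ (fderiv ℝ (Function.invFunOn Ψ W ∘ Φ))
          ((Function.invFunOn Φ U ∘ Ψ) w) :=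
        (((CMfd.trans_contDiffOn hΦ hΨ).fderiv_of_isOpen (CMfd.isOpen_overlap hΦ hΨ)
          (m := ∞) (by simp)) _ hτw).contDiffAt ((CMfd.isOpen_overlap hΦ hΨ).mem_nhds hτw)
      have h2 : ContDiffAt ℝ ∞ a ((Function.invFunOn Φ U ∘ Ψ) w) :=
        (ha _ hτw.1).contDiffAt ((CMfd.isOpen_dom hΦ).mem_nhds hτw.1)
      have h3 := CMfd.trans_contDiffAt hΨ hΦ hw'
      exact (h1.comp w h3).clm_apply (h2.comp w h3)
    · filter_upwards [(CMfd.isOpen_overlap hΨ hΦ).mem_nhds hw'] with w₁ hw₁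
      have hτ := CMfd.trans_mapsTo hΨ hΦ hw₁
      refine ⟨hw₁.1, ?_⟩
      have e1 : X (Ψ w₁) = fderiv ℝ Φ ((Function.invFunOn Φ U ∘ Ψ) w₁)
          (a ((Function.invFunOn Φ U ∘ Ψ) w₁)) := by
        rw [← hX _ hτ.1, CMfd.trans_spec hΨ hΦ hw₁]
      rw [e1, CMfd.fderiv_eq_comp_trans hΦ hΨ hτ, CMfd.trans_leftInv hΨ hΦ hw₁,
        (CMfd.trans_hasFDerivAt_real hΦ hΨ hτ).fderiv]
      rfl
  refine ⟨fun w hw => ?_, fun w hw => ?_⟩
  · obtain ⟨b, hb, hev⟩ := key w hw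
    refine (hb.congr_of_eventuallyEq ?_).contDiffWithinAt
    filter_upwards [hev] with w' hw'
    exact coField_eq hΨ hw'.1 hw'.2
  · obtain ⟨b, -, hev⟩ := key w hw
    have := hev.self_of_nhds
    rw [coField_eq hΨ this.1 this.2]
    exact this.2

theorem CMfd.smoothField_of_exists
    (h : ∀ (Φ : CE ι → V) (U : Set (CE ι)), 𝓜.IsHol Φ U →
      ∃ a : CE ι → CE ι, ContDiffOn ℝ ∞ a U ∧ ∀ z ∈ U, X (Φ z) = fderiv ℝ Φ z (a z)) :
    𝓜.SmoothField X := by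
  intro Φ U hΦ
  obtain ⟨a, ha, hX⟩ := h Φ U hΦ
  have he : ∀ z ∈ U, coField Φ X z = a z := fun z hz => coField_eq hΦ hz (hX z hz)
  exact ⟨ha.congr he, fun z hz => by rw [he z hz]; exact hX z hz⟩

theorem CMfd.SmoothField.mem_tangent (hX : 𝓜.SmoothField X) {x : V} (hx : x ∈ 𝓜.carrier) :
    X x ∈ 𝓜.tangent x := by
  have h1 := (hX _ _ (𝓜.isHol_pΦ hx)).2 _ (𝓜.co_mem hx)
  rw [𝓜.pΦ_co hx] at h1
  exact ⟨_, h1.symm⟩

/-- a holomorphic field is smooth, with holomorphic components. -/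
theorem CMfd.HolField.smoothField (hX : 𝓜.HolField X) : 𝓜.SmoothField X := by
  refine CMfd.smoothField_of_exists fun Φ U hΦ => ?_
  obtain ⟨a, ha, h⟩ := hX Φ U hΦ
  exact ⟨a, hol_contDiffOn_real (CMfd.isOpen_dom hΦ) ha, h⟩

theorem CMfd.HolField.differentiableOn_coField (hX : 𝓜.HolField X) (hΦ : 𝓜.IsHol Φ U) :
    DifferentiableOn ℂ (coField Φ X) U := by
  obtain ⟨a, ha, h⟩ := hX Φ U hΦ
  exact ha.congr fun z hz => coField_eq hΦ hz (h z hz)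

/-- transformation law of the components. -/
theorem CMfd.SmoothField.coField_trans (hX : 𝓜.SmoothField X) (hΦ : 𝓜.IsHol Φ U)
    (hΨ : 𝓜.IsHol Ψ W) (hz : z ∈ U ∩ Φ ⁻¹' (Ψ '' W)) :
    coField Ψ X ((Function.invFunOn Ψ W ∘ Φ) z) =
      fderiv ℂ (Function.invFunOn Ψ W ∘ Φ) z (coField Φ X z) := by
  rw [← CMfd.coVec_trans hΦ hΨ hz, ← (hX Φ U hΦ).2 z hz.1]
  unfold coField
  rw [CMfd.trans_spec hΦ hΨ hz]

theorem CMfd.smoothField_zero : 𝓜.SmoothField (fun _ => (0 : V)) :=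
  CMfd.smoothField_of_exists fun _ _ _ => ⟨fun _ => 0, contDiffOn_const, fun _ _ => by simp⟩

theorem CMfd.SmoothField.add (hX : 𝓜.SmoothField X) (hY : 𝓜.SmoothField Y) :
    𝓜.SmoothField (fun x => X x + Y x) :=
  CMfd.smoothField_of_exists fun Φ U hΦ =>
    ⟨fun z => coField Φ X z + coField Φ Y z, (hX Φ U hΦ).1.add (hY Φ U hΦ).1, fun z hz => by
      rw [map_add, ← (hX Φ U hΦ).2 z hz, ← (hY Φ U hΦ).2 z hz]⟩

theorem CMfd.SmoothField.neg (hX : 𝓜.SmoothField X) : 𝓜.SmoothField (fun x => - X x) :=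
  CMfd.smoothField_of_exists fun Φ U hΦ =>
    ⟨fun z => - coField Φ X z, (hX Φ U hΦ).1.neg, fun z hz => by
      rw [map_neg, ← (hX Φ U hΦ).2 z hz]⟩

theorem CMfd.SmoothField.smul {u : V → ℝ} (hu : 𝓜.Smooth u) (hX : 𝓜.SmoothField X) :
    𝓜.SmoothField (fun x => u x • X x) :=
  CMfd.smoothField_of_exists fun Φ U hΦ =>
    ⟨fun z => (u ∘ Φ) z • coField Φ X z, (hu Φ U hΦ).smul (hX Φ U hΦ).1, fun z hz => by
      rw [map_smul, ← (hX Φ U hΦ).2 z hz]; rfl⟩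

theorem CMfd.SmoothField.congr (hX : 𝓜.SmoothField X) (h : Set.EqOn Y X 𝓜.carrier) :
    𝓜.SmoothField Y :=
  CMfd.smoothField_of_exists fun Φ U hΦ =>
    ⟨coField Φ X, (hX Φ U hΦ).1, fun z hz => by
      rw [h (CMfd.mem_carrier hΦ hz)]; exact (hX Φ U hΦ).2 z hz⟩

theorem CMfd.SmoothField.smoothMap (hX : 𝓜.SmoothField X) : 𝓜.SmoothMap X := by
  intro Φ U hΦ
  have h1 : ContDiffOn ℝ ∞ (fun z => fderiv ℝ Φ z (coField Φ X z)) U :=
    ((𝓜.isParam hΦ).smooth.fderiv_of_isOpen (CMfd.isOpen_dom hΦ) (m := ∞) (by simp)).clm_apply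
      (hX Φ U hΦ).1
  exact h1.congr fun z hz => (hX Φ U hΦ).2 z hz

/-- a field given by components in the chosen parametrisations. -/
theorem CMfd.smoothField_mk (A : (CE ι → V) → CE ι → CE ι)
    (hs : ∀ (Φ : CE ι → V) (U : Set (CE ι)), 𝓜.IsHol Φ U → ContDiffOn ℝ ∞ (A Φ) U)
    (hc : ∀ (Φ Ψ : CE ι → V) (U W : Set (CE ι)), 𝓜.IsHol Φ U → 𝓜.IsHol Ψ W →
      ∀ z ∈ U ∩ Φ ⁻¹' (Ψ '' W), A Ψ ((Function.invFunOn Ψ W ∘ Φ) z) =
        fderiv ℂ (Function.invFunOn Ψ W ∘ Φ) z (A Φ z)) :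
    𝓜.SmoothField (fun x => fderiv ℝ (𝓜.pΦ x) (𝓜.co x) (A (𝓜.pΦ x) (𝓜.co x))) ∧
    ∀ (Φ : CE ι → V) (U : Set (CE ι)), 𝓜.IsHol Φ U → ∀ z ∈ U,
      coField Φ (fun x => fderiv ℝ (𝓜.pΦ x) (𝓜.co x) (A (𝓜.pΦ x) (𝓜.co x))) z = A Φ z := by
  have key : ∀ (Φ : CE ι → V) (U : Set (CE ι)), 𝓜.IsHol Φ U → ∀ z ∈ U,
      fderiv ℝ (𝓜.pΦ (Φ z)) (𝓜.co (Φ z)) (A (𝓜.pΦ (Φ z)) (𝓜.co (Φ z))) =
        fderiv ℝ Φ z (A Φ z) := by
    intro Φ U hΦ z hz
    have hx : Φ z ∈ 𝓜.carrier := CMfd.mem_carrier hΦ hz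
    have hz' : z ∈ U ∩ Φ ⁻¹' (𝓜.pΦ (Φ z) '' 𝓜.pU (Φ z)) := ⟨hz, 𝓜.mem_image_pΦ hx⟩
    rw [CMfd.fderiv_eq_comp_trans hΦ (𝓜.isHol_pΦ hx) hz', ← hc _ _ _ _ hΦ (𝓜.isHol_pΦ hx) z hz']
    rfl
  exact ⟨CMfd.smoothField_of_exists fun Φ U hΦ => ⟨A Φ, hs Φ U hΦ, key Φ U hΦ⟩,
    fun Φ U hΦ z hz => coField_eq hΦ hz (key Φ U hΦ z hz)⟩

end basic

/-! ### 2. extension to the ambient space, `TanField` -/

section ext

variable [FiniteDimensional ℝ V]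
variable {F : Type} [NormedAddCommGroup F] [NormedSpace ℝ F]
variable {𝓜 : CMfd V ι} {X : V → V} {u : V → F}

/-- local smooth extensions: `u ∘ Φ ∘ ρ`, `ρ` the smooth local left inverse of `Φ`
(`IsParam.exists_smooth_leftInverse`). -/
theorem CMfd.SmoothMap.locExt (hu : 𝓜.SmoothMap u) : LocExt 𝓜.carrier u := by
  intro x hx
  have hΦ := 𝓜.isHol_pΦ hx
  have hp := 𝓜.isParam hΦ
  have hz := 𝓜.co_mem hx
  obtain ⟨O, ρ, hO, hzO, hρ, hρeq⟩ := hp.exists_smooth_leftInverse hz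
  rw [𝓜.pΦ_co hx] at hzO
  have hopen : IsOpen (O ∩ ρ ⁻¹' 𝓜.pU x) := hρ.continuousOn.isOpen_inter_preimage hO hp.isOpen
  have hρx : ρ x ∈ 𝓜.pU x := by
    rw [(hρeq x ⟨hx, hzO⟩).2]
    exact hz
  refine ⟨O ∩ ρ ⁻¹' 𝓜.pU x, hopen.mem_nhds ⟨hzO, hρx⟩, (u ∘ 𝓜.pΦ x) ∘ ρ, ?_, ?_⟩
  · exact (hu _ _ hΦ).comp (hρ.mono Set.inter_subset_left) fun y hy => hy.2
  · rintro y ⟨⟨hyO, -⟩, hyM⟩
    have h1 := hρeq y ⟨hyM, hyO⟩
    show u (𝓜.pΦ x (ρ y)) = u y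
    rw [h1.2, hp.rightInv h1.1]

/-- **every smooth map on a closed manifold is the restriction of a smooth map on `V`.** -/
theorem CMfd.SmoothMap.exists_extension (hM : IsClosed 𝓜.carrier) (hu : 𝓜.SmoothMap u) :
    ∃ g : V → F, ContDiff ℝ ∞ g ∧ Set.EqOn g u 𝓜.carrier :=
  exists_contDiff_extension hM hu.locExt

theorem CMfd.Smooth.exists_extension (hM : IsClosed 𝓜.carrier) {u : V → ℝ} (hu : 𝓜.Smooth u) :
    ∃ g : V → ℝ, ContDiff ℝ ∞ g ∧ Set.EqOn g u 𝓜.carrier :=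
  exists_contDiff_extension hM (CMfd.SmoothMap.locExt (u := u) hu)

/-- conversely the restriction of an ambient smooth map is smooth. -/
theorem CMfd.smoothMap_of_contDiffOn {O : Set V} (hO : IsOpen O) (hMO : 𝓜.carrier ⊆ O)
    (hu : ContDiffOn ℝ ∞ u O) : 𝓜.SmoothMap u := by
  intro Φ U hΦ
  exact hu.comp (𝓜.isParam hΦ).smooth fun z hz => hMO (CMfd.mem_carrier hΦ hz)

/-- local integral curves: `Φ ∘ (flow line of coField Φ X)`. -/
theorem CMfd.SmoothField.locInt (hX : 𝓜.SmoothField X) : LocInt 𝓜.carrier X := by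
  intro x hx
  have hΦ := 𝓜.isHol_pΦ hx
  have hp := 𝓜.isParam hΦ
  have hz := 𝓜.co_mem hx
  have ha : ContDiffOn ℝ 1 (coField (𝓜.pΦ x) X) (𝓜.pU x) :=
    (hX _ _ hΦ).1.of_le (by exact_mod_cast le_top)
  obtain ⟨ε, hε, hdom⟩ := ODE.exists_pos_forall_mem_dom hp.isOpen ha
    (isCompact_singleton (x := 𝓜.co x)) (Set.singleton_subset_iff.2 hz)
  refine ⟨ε, hε, fun r => 𝓜.pΦ x (fl (coField (𝓜.pΦ x) X) (𝓜.pU x) r (𝓜.co x)), ?_, ?_⟩
  · show 𝓜.pΦ x (fl (coField (𝓜.pΦ x) X) (𝓜.pU x) 0 (𝓜.co x)) = x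
    rw [fl_zero, 𝓜.pΦ_co hx]
  · intro t ht
    have hd : (t, 𝓜.co x) ∈ dom (coField (𝓜.pΦ x) X) (𝓜.pU x) :=
      hdom _ rfl t (abs_le.2 ⟨ht.1.le, ht.2.le⟩)
    have hm := fl_mem hd
    refine ⟨CMfd.mem_carrier hΦ hm, ?_⟩
    rw [(hX _ _ hΦ).2 _ hm]
    exact (hp.differentiableAt hm).hasFDerivAt.comp_hasDerivAt t
      (ODE.hasDerivAt_fl hp.isOpen ha hd)

theorem CMfd.SmoothField.tanField (hM : IsClosed 𝓜.carrier) (hX : 𝓜.SmoothField X) :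
    TanField 𝓜.carrier X :=
  ⟨hM, hX.smoothMap.locExt, hX.locInt⟩

end ext

/-! ### 3. the flow in parametrisations -/

/-- the set of `(t, z)` at which the flow can be read from the parametrisation `(Φ, U)` to the
parametrisation `(Ψ, W)`. -/
def flDom (M : Set V) (X : V → V) (Φ : CE ι → V) (U : Set (CE ι)) (Ψ : CE ι → V)
    (W : Set (CE ι)) : Set (ℝ × CE ι) :=
  {q | q.2 ∈ U ∧ (q.1, Φ q.2) ∈ dom X M ∧ fl X M q.1 (Φ q.2) ∈ Ψ '' W}

/-- the flow read in parametrisations. -/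
noncomputable def flCo (M : Set V) (X : V → V) (Φ Ψ : CE ι → V) (W : Set (CE ι))
    (q : ℝ × CE ι) : CE ι :=
  Function.invFunOn Ψ W (fl X M q.1 (Φ q.2))

section param

variable [FiniteDimensional ℝ V]
variable {𝓜 : CMfd V ι} {X : V → V} {Φ Ψ : CE ι → V} {U W : Set (CE ι)} {t : ℝ} {z : CE ι}

/-- a flow line in the chart is a flow line on the manifold. -/
theorem CMfd.SmoothField.fl_param (hM : IsClosed 𝓜.carrier) (hX : 𝓜.SmoothField X)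
    (hΦ : 𝓜.IsHol Φ U) (h : (t, z) ∈ dom (coField Φ X) U) :
    (t, Φ z) ∈ dom X 𝓜.carrier ∧ fl X 𝓜.carrier t (Φ z) = Φ (fl (coField Φ X) U t z) :=
  (hX.tanField hM).fl_map (θ' := fun y => fderiv ℝ Φ y)
    (fun _ hy => ((𝓜.isParam hΦ).differentiableAt hy).hasFDerivAt)
    (fun _ hy => CMfd.mem_carrier hΦ hy) (fun y hy => ((hX Φ U hΦ).2 y hy).symm) h

/-- the coordinate curve of a flow line solves the chart equation. -/
theorem CMfd.SmoothField.hasDerivAt_invFunOn_fl (hM : IsClosed 𝓜.carrier) (hX : 𝓜.SmoothField X)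
    (hΨ : 𝓜.IsHol Ψ W) {x : V} (h : (t, x) ∈ dom X 𝓜.carrier)
    (h' : fl X 𝓜.carrier t x ∈ Ψ '' W) :
    HasDerivAt (fun r => Function.invFunOn Ψ W (fl X 𝓜.carrier r x))
      (coField Ψ X (Function.invFunOn Ψ W (fl X 𝓜.carrier t x))) t := by
  have hT := hX.tanField hM
  have hp := 𝓜.isParam hΨ
  have hγ := hT.hasDerivAt_fl h
  have hev : ∀ᶠ r in 𝓝 t, fl X 𝓜.carrier r x ∈ 𝓜.carrier := by
    filter_upwards [(hT.isOpen_times x).mem_nhds h] with r hr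
    exact fl_mem hr
  obtain ⟨hd, hfd⟩ := hp.hasFDerivAt_invFunOn_comp hγ.differentiableAt hev h'
  have hw := hp.invFunOn_mem h'
  have h1 := hfd 1
  rw [fderiv_apply_one_eq_deriv, fderiv_apply_one_eq_deriv, hγ.deriv] at h1
  have h2 : X (fl X 𝓜.carrier t x) = fderiv ℝ Ψ (Function.invFunOn Ψ W (fl X 𝓜.carrier t x))
      (coField Ψ X (Function.invFunOn Ψ W (fl X 𝓜.carrier t x))) := by
    rw [← (hX Ψ W hΨ).2 _ hw, hp.rightInv h']
  have h3 := hp.immersion _ hw (h2.symm.trans h1)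
  rw [h3]
  exact hd.hasDerivAt

/-- a flow line on the manifold which stays in the image of the chart is a flow line in the chart. -/
theorem CMfd.SmoothField.mem_dom_param (hM : IsClosed 𝓜.carrier) (hX : 𝓜.SmoothField X)
    (hΦ : 𝓜.IsHol Φ U) (hz : z ∈ U) (h : (t, Φ z) ∈ dom X 𝓜.carrier)
    (h' : ∀ r ∈ Set.uIcc 0 t, fl X 𝓜.carrier r (Φ z) ∈ Φ '' U) :
    (t, z) ∈ dom (coField Φ X) U := by
  refine ⟨fun r => Function.invFunOn Φ U (fl X 𝓜.carrier r (Φ z)), ?_, fun s hs => ⟨?_, ?_⟩⟩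
  · show Function.invFunOn Φ U (fl X 𝓜.carrier 0 (Φ z)) = z
    rw [fl_zero]
    exact (𝓜.isParam hΦ).leftInv hz
  · exact (𝓜.isParam hΦ).invFunOn_mem (h' s hs)
  · exact (hX.hasDerivAt_invFunOn_fl hM hΦ (mem_dom_of_mem_uIcc h hs) (h' s hs)).hasDerivWithinAt

/-- ambient description of `flDom` and `flCo`. -/
theorem CMfd.SmoothField.exists_flDom_eq (hM : IsClosed 𝓜.carrier) (hX : 𝓜.SmoothField X)
    (hΦ : 𝓜.IsHol Φ U) (hΨ : 𝓜.IsHol Ψ W) :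
    ∃ (D : Set (ℝ × V)) (G : ℝ × V → V), IsOpen D ∧ ContDiffOn ℝ ∞ G D ∧
      flDom 𝓜.carrier X Φ U Ψ W =
        (Set.univ ×ˢ U) ∩ (fun q : ℝ × CE ι => (q.1, Φ q.2)) ⁻¹' D ∧
      ∀ q ∈ flDom 𝓜.carrier X Φ U Ψ W, fl X 𝓜.carrier q.1 (Φ q.2) = G (q.1, Φ q.2) := by
  obtain ⟨D, G, hD, hG, hdom, hfl⟩ := (hX.tanField hM).exists_contDiffOn
  obtain ⟨O', hO', himg⟩ := (𝓜.isParam hΨ).image
  refine ⟨D ∩ G ⁻¹' O', G, hG.continuousOn.isOpen_inter_preimage hD hO',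
    hG.mono Set.inter_subset_left, ?_, ?_⟩
  · ext q
    constructor
    · rintro ⟨hq, hd, hi⟩
      have hd' := hd
      rw [hdom] at hd'
      refine ⟨⟨Set.mem_univ _, hq⟩, hd'.1, ?_⟩
      show G (q.1, Φ q.2) ∈ O'
      rw [← hfl _ hd]
      rw [himg] at hi
      exact hi.2
    · rintro ⟨⟨-, hq⟩, hd, hi⟩
      have hd' : (q.1, Φ q.2) ∈ dom X 𝓜.carrier := by
        rw [hdom]
        exact ⟨hd, Set.mem_univ _, CMfd.mem_carrier hΦ hq⟩
      refine ⟨hq, hd', ?_⟩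
      rw [himg]
      refine ⟨fl_mem hd', ?_⟩
      rw [hfl _ hd']
      exact hi
  · intro q hq
    exact hfl _ hq.2.1

theorem contDiffOn_prodMap_param (hΦ : 𝓜.IsHol Φ U) :
    ContDiffOn ℝ ∞ (fun q : ℝ × CE ι => (q.1, Φ q.2)) (Set.univ ×ˢ U) :=
  contDiffOn_fst.prodMk ((𝓜.isParam hΦ).smooth.comp contDiffOn_snd fun _ hq => hq.2)

theorem CMfd.SmoothField.isOpen_flDom (hM : IsClosed 𝓜.carrier) (hX : 𝓜.SmoothField X)
    (hΦ : 𝓜.IsHol Φ U) (hΨ : 𝓜.IsHol Ψ W) : IsOpen (flDom 𝓜.carrier X Φ U Ψ W) := by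
  obtain ⟨D, G, hD, -, he, -⟩ := hX.exists_flDom_eq hM hΦ hΨ
  rw [he]
  exact (contDiffOn_prodMap_param hΦ).continuousOn.isOpen_inter_preimage
    (isOpen_univ.prod (CMfd.isOpen_dom hΦ)) hD

theorem CMfd.SmoothField.flCo_mem (h : (t, z) ∈ flDom 𝓜.carrier X Φ U Ψ W) :
    flCo 𝓜.carrier X Φ Ψ W (t, z) ∈ W ∧
      Ψ (flCo 𝓜.carrier X Φ Ψ W (t, z)) = fl X 𝓜.carrier t (Φ z) :=
  ⟨Function.invFunOn_mem h.2.2, Function.invFunOn_eq h.2.2⟩

/-- **the flow is smooth in parametrisations.** -/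
theorem CMfd.SmoothField.contDiffOn_flCo (hM : IsClosed 𝓜.carrier) (hX : 𝓜.SmoothField X)
    (hΦ : 𝓜.IsHol Φ U) (hΨ : 𝓜.IsHol Ψ W) :
    ContDiffOn ℝ ∞ (flCo 𝓜.carrier X Φ Ψ W) (flDom 𝓜.carrier X Φ U Ψ W) := by
  have hopen := CMfd.SmoothField.isOpen_flDom hM hX hΦ hΨ
  obtain ⟨D, G, hD, hG, he, hfl⟩ := hX.exists_flDom_eq hM hΦ hΨ
  intro q hq
  have hq' := hq
  rw [he] at hq'
  have hnh := hopen.mem_nhds hq
  have h1 : ContDiffAt ℝ ∞ (fun q : ℝ × CE ι => (q.1, Φ q.2)) q :=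
    ((contDiffOn_prodMap_param hΦ) q hq'.1).contDiffAt
      ((isOpen_univ.prod (CMfd.isOpen_dom hΦ)).mem_nhds hq'.1)
  have h2 : ContDiffAt ℝ ∞ G (q.1, Φ q.2) := (hG _ hq'.2).contDiffAt (hD.mem_nhds hq'.2)
  have h3 : ContDiffAt ℝ ∞ (fun q : ℝ × CE ι => G (q.1, Φ q.2)) q :=
    ContDiffAt.comp q (g := G) h2 h1
  have h4 : ContDiffAt ℝ ∞ (Function.invFunOn Ψ W ∘ fun q : ℝ × CE ι => G (q.1, Φ q.2)) q := by
    refine (𝓜.isParam hΨ).contDiffAt_invFunOn_comp le_rfl h3 ?_ ?_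
    · filter_upwards [hnh] with p hp
      rw [← hfl p hp]
      exact fl_mem hp.2.1
    · show G (q.1, Φ q.2) ∈ Ψ '' W
      rw [← hfl q hq]
      exact hq.2.2
  refine (h4.congr_of_eventuallyEq ?_).contDiffWithinAt
  filter_upwards [hnh] with p hp
  show Function.invFunOn Ψ W (fl X 𝓜.carrier p.1 (Φ p.2)) = Function.invFunOn Ψ W (G (p.1, Φ p.2))
  rw [hfl p hp]

theorem CMfd.SmoothField.hasDerivAt_flCo (hM : IsClosed 𝓜.carrier) (hX : 𝓜.SmoothField X)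
    (hΦ : 𝓜.IsHol Φ U) (hΨ : 𝓜.IsHol Ψ W) (h : (t, z) ∈ flDom 𝓜.carrier X Φ U Ψ W) :
    HasDerivAt (fun r => flCo 𝓜.carrier X Φ Ψ W (r, z))
      (coField Ψ X (flCo 𝓜.carrier X Φ Ψ W (t, z))) t :=
  hX.hasDerivAt_invFunOn_fl hM hΨ h.2.1 h.2.2

/-- abstract variational equation: a `C²` family `F(r, w)` with `∂_r F = a ∘ F`. -/
theorem hasDerivAt_fderiv_of_flow {E : Type*} [NormedAddCommGroup E] [NormedSpace ℝ E]
    {F : ℝ × E → E} {a : E → E} {D : Set (ℝ × E)} {t : ℝ} {x : E} (hopen : IsOpen D)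
    (hF : ContDiffOn ℝ 2 F D) (ha : DifferentiableAt ℝ a (F (t, x)))
    (hder : ∀ p ∈ D, HasDerivAt (fun r => F (r, p.2)) (a (F p)) p.1) (h : (t, x) ∈ D) :
    HasDerivAt (fun r => fderiv ℝ (fun w => F (r, w)) x)
      ((fderiv ℝ a (F (t, x))).comp (fderiv ℝ (fun w => F (t, w)) x)) t := by
  have hΦ2 : ContDiffAt ℝ 2 F (t, x) := hF.contDiffAt (hopen.mem_nhds h)
  have hΦd : ∀ p ∈ D, DifferentiableAt ℝ F p := fun p hp =>
    (hF.contDiffAt (hopen.mem_nhds hp)).differentiableAt (by norm_num)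
  have hD : DifferentiableAt ℝ (fderiv ℝ F) (t, x) :=
    (hΦ2.fderiv_right (m := 1) (by norm_num)).differentiableAt (by norm_num)
  set D2 := fderiv ℝ (fderiv ℝ F) (t, x) with hD2
  have hpart : ∀ r : ℝ, (r, x) ∈ D →
      fderiv ℝ (fun w => F (r, w)) x = (fderiv ℝ F (r, x)).comp (ContinuousLinearMap.inr ℝ ℝ E) := by
    intro r hr
    have h1 : HasFDerivAt (fun y : E => (r, y)) (ContinuousLinearMap.inr ℝ ℝ E) x :=
      hasFDerivAt_prodMk_right r x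
    exact ((hΦd _ hr).hasFDerivAt.comp x h1).fderiv
  have hcurve : HasDerivAt (fun r : ℝ => (r, x)) ((1 : ℝ), (0 : E)) t :=
    (hasDerivAt_id t).prodMk (hasDerivAt_const t x)
  have h1 : HasDerivAt (fun r : ℝ => fderiv ℝ F (r, x)) (D2 (1, 0)) t :=
    hD.hasFDerivAt.comp_hasDerivAt t hcurve
  have h2 : HasDerivAt (fun r : ℝ => (fderiv ℝ F (r, x)).comp (ContinuousLinearMap.inr ℝ ℝ E))
      ((D2 (1, 0)).comp (ContinuousLinearMap.inr ℝ ℝ E)) t := by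
    have := h1.clm_comp (hasDerivAt_const t (ContinuousLinearMap.inr ℝ ℝ E))
    simpa using this
  have hev : (fun r => fderiv ℝ (fun w => F (r, w)) x) =ᶠ[𝓝 t]
      fun r : ℝ => (fderiv ℝ F (r, x)).comp (ContinuousLinearMap.inr ℝ ℝ E) := by
    have h4 : ∀ᶠ r in 𝓝 t, (r, x) ∈ D :=
      (Continuous.prodMk_left x).continuousAt.eventually (hopen.mem_nhds h)
    filter_upwards [h4] with r hr using hpart r hr
  refine (h2.congr_of_eventuallyEq hev).congr_deriv ?_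
  ext v
  have hsymm : IsSymmSndFDerivAt ℝ F (t, x) := hΦ2.isSymmSndFDerivAt (by simp)
  show D2 (1, 0) (0, v) = fderiv ℝ a (F (t, x)) (fderiv ℝ (fun w => F (t, w)) x v)
  rw [hpart t h, hD2, hsymm.eq (1, 0) (0, v)]
  have h5 : (fun p => fderiv ℝ F p (1, 0)) =ᶠ[𝓝 (t, x)] fun p => a (F p) := by
    filter_upwards [hopen.mem_nhds h] with p hp
    have h6 : HasDerivAt (fun r : ℝ => (r, p.2)) ((1 : ℝ), (0 : E)) p.1 :=
      (hasDerivAt_id p.1).prodMk (hasDerivAt_const p.1 p.2)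
    have h7' : HasFDerivAt F (fderiv ℝ F p) ((fun r : ℝ => (r, p.2)) p.1) := (hΦd p hp).hasFDerivAt
    have h7'' := HasFDerivAt.comp_hasDerivAt p.1 h7' h6
    have h7 : HasDerivAt (fun r => F (r, p.2)) (fderiv ℝ F p (1, 0)) p.1 := h7''
    exact h7.unique (hder p hp)
  have h8 : HasFDerivAt (fun p => fderiv ℝ F p (1, 0))
      ((fderiv ℝ (fderiv ℝ F) (t, x)).flip (1, 0)) (t, x) := by
    have := hD.hasFDerivAt.clm_apply (hasFDerivAt_const ((1 : ℝ), (0 : E)) (t, x))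
    simpa using this
  have h9 : HasFDerivAt (fun p => a (F p)) ((fderiv ℝ a (F (t, x))).comp (fderiv ℝ F (t, x)))
      (t, x) := ha.hasFDerivAt.comp (t, x) (hΦd _ h).hasFDerivAt
  have h10 := h8.unique (h9.congr_of_eventuallyEq h5)
  exact congrArg (fun L : ℝ × E →L[ℝ] E => L (0, v)) h10

/-- variational equation in parametrisations. -/
theorem CMfd.SmoothField.hasDerivAt_fderiv_flCo (hM : IsClosed 𝓜.carrier)
    (hX : 𝓜.SmoothField X) (hΦ : 𝓜.IsHol Φ U) (hΨ : 𝓜.IsHol Ψ W)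
    (h : (t, z) ∈ flDom 𝓜.carrier X Φ U Ψ W) :
    HasDerivAt (fun r => fderiv ℝ (fun w => flCo 𝓜.carrier X Φ Ψ W (r, w)) z)
      ((fderiv ℝ (coField Ψ X) (flCo 𝓜.carrier X Φ Ψ W (t, z))).comp
        (fderiv ℝ (fun w => flCo 𝓜.carrier X Φ Ψ W (t, w)) z)) t := by
  refine hasDerivAt_fderiv_of_flow (CMfd.SmoothField.isOpen_flDom hM hX hΦ hΨ)
    ((CMfd.SmoothField.contDiffOn_flCo hM hX hΦ hΨ).of_le ENat.LEInfty.out) ?_
    (fun p hp => CMfd.SmoothField.hasDerivAt_flCo hM hX hΦ hΨ hp) h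
  have hw := (CMfd.SmoothField.flCo_mem h).1
  exact (((hX Ψ W hΨ).1 _ hw).contDiffAt ((CMfd.isOpen_dom hΨ).mem_nhds hw)).differentiableAt
    (by simp)

theorem CMfd.SmoothField.differentiableAt_flCo (hM : IsClosed 𝓜.carrier)
    (hX : 𝓜.SmoothField X) (hΦ : 𝓜.IsHol Φ U) (hΨ : 𝓜.IsHol Ψ W)
    (h : (t, z) ∈ flDom 𝓜.carrier X Φ U Ψ W) :
    DifferentiableAt ℝ (fun w => flCo 𝓜.carrier X Φ Ψ W (t, w)) z := by
  have h1 : DifferentiableAt ℝ (flCo 𝓜.carrier X Φ Ψ W) (t, z) :=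
    ((CMfd.SmoothField.contDiffOn_flCo hM hX hΦ hΨ _ h).contDiffAt
      ((CMfd.SmoothField.isOpen_flDom hM hX hΦ hΨ).mem_nhds h)).differentiableAt (by simp)
  have h2 : DifferentiableAt ℝ (fun w : CE ι => (t, w)) z :=
    (differentiableAt_const t).prodMk differentiableAt_id
  exact DifferentiableAt.comp z (g := flCo 𝓜.carrier X Φ Ψ W) h1 h2

/-- the flow maps are local diffeomorphisms. -/
theorem CMfd.SmoothField.injective_fderiv_flCo (hM : IsClosed 𝓜.carrier)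
    (hX : 𝓜.SmoothField X) (hΦ : 𝓜.IsHol Φ U) (hΨ : 𝓜.IsHol Ψ W)
    (h : (t, z) ∈ flDom 𝓜.carrier X Φ U Ψ W) :
    Function.Injective (fderiv ℝ (fun w => flCo 𝓜.carrier X Φ Ψ W (t, w)) z) := by
  have hT := hX.tanField hM
  have hopen := CMfd.SmoothField.isOpen_flDom hM hX hΦ hΨ
  -- the inverse family
  have hback : ∀ w, (t, w) ∈ flDom 𝓜.carrier X Φ U Ψ W →
      (-t, flCo 𝓜.carrier X Φ Ψ W (t, w)) ∈ flDom 𝓜.carrier X Ψ W Φ U ∧
      flCo 𝓜.carrier X Ψ Φ U (-t, flCo 𝓜.carrier X Φ Ψ W (t, w)) = w := by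
    intro w hw
    obtain ⟨h1, h2⟩ := CMfd.SmoothField.flCo_mem hw
    obtain ⟨h3, h4⟩ := hT.fl_neg hw.2.1
    refine ⟨⟨h1, ?_, ?_⟩, ?_⟩
    · show (-t, Ψ (flCo 𝓜.carrier X Φ Ψ W (t, w))) ∈ dom X 𝓜.carrier
      rw [h2]; exact h3
    · show fl X 𝓜.carrier (-t) (Ψ (flCo 𝓜.carrier X Φ Ψ W (t, w))) ∈ Φ '' U
      rw [h2, h4]; exact ⟨w, hw.1, rfl⟩
    · show Function.invFunOn Φ U (fl X 𝓜.carrier (-t) (Ψ (flCo 𝓜.carrier X Φ Ψ W (t, w)))) = w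
      rw [h2, h4]; exact (𝓜.isParam hΦ).leftInv hw.1
  have hd1 := hX.differentiableAt_flCo hM hΦ hΨ h
  have hd2 := hX.differentiableAt_flCo hM hΨ hΦ (hback z h).1
  have hcomp : HasFDerivAt (fun w => flCo 𝓜.carrier X Ψ Φ U (-t, flCo 𝓜.carrier X Φ Ψ W (t, w)))
      ((fderiv ℝ (fun w => flCo 𝓜.carrier X Ψ Φ U (-t, w)) (flCo 𝓜.carrier X Φ Ψ W (t, z))).comp
        (fderiv ℝ (fun w => flCo 𝓜.carrier X Φ Ψ W (t, w)) z)) z :=
    HasFDerivAt.comp z (g := fun w => flCo 𝓜.carrier X Ψ Φ U (-t, w)) hd2.hasFDerivAt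
      hd1.hasFDerivAt
  have hev : (fun w => flCo 𝓜.carrier X Ψ Φ U (-t, flCo 𝓜.carrier X Φ Ψ W (t, w))) =ᶠ[𝓝 z]
      fun w => w := by
    have h4 : ∀ᶠ w in 𝓝 z, (t, w) ∈ flDom 𝓜.carrier X Φ U Ψ W :=
      (Continuous.prodMk_right t).continuousAt.eventually (hopen.mem_nhds h)
    filter_upwards [h4] with w hw using (hback w hw).2
  have hid := hcomp.unique ((hasFDerivAt_id z).congr_of_eventuallyEq hev)
  intro a b hab
  have h5 := congrArg (fun L : CE ι →L[ℝ] CE ι => L a) hid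
  have h6 := congrArg (fun L : CE ι →L[ℝ] CE ι => L b) hid
  simp only [ContinuousLinearMap.comp_apply] at h5 h6
  rw [hab, h6] at h5
  exact h5.symm

/-- a smooth family of points of the manifold is carried to a smooth family:
`(t, s) ↦ fl t (σ s)`, as an ambient map. -/
theorem CMfd.SmoothField.contDiffOn_fl_comp (hM : IsClosed 𝓜.carrier) (hX : 𝓜.SmoothField X)
    {E : Type} [NormedAddCommGroup E] [NormedSpace ℝ E] {σ : E → V} {S : Set E}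
    (hσ : ContDiffOn ℝ ∞ σ S) (hσM : ∀ s ∈ S, σ s ∈ 𝓜.carrier) :
    ContDiffOn ℝ ∞ (fun q : ℝ × E => fl X 𝓜.carrier q.1 (σ q.2))
      {q | q.2 ∈ S ∧ (q.1, σ q.2) ∈ dom X 𝓜.carrier} := by
  obtain ⟨D, G, hD, hG, hdom, hfl⟩ := (hX.tanField hM).exists_contDiffOn
  have h1 : ContDiffOn ℝ ∞ (fun q : ℝ × E => (q.1, σ q.2))
      {q | q.2 ∈ S ∧ (q.1, σ q.2) ∈ dom X 𝓜.carrier} :=
    contDiffOn_fst.prodMk (hσ.comp contDiffOn_snd fun _ hq => hq.1)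
  have h2 : ContDiffOn ℝ ∞ (fun q : ℝ × E => G (q.1, σ q.2))
      {q | q.2 ∈ S ∧ (q.1, σ q.2) ∈ dom X 𝓜.carrier} :=
    ContDiffOn.comp (g := G) hG h1 fun q hq => by
      have := hq.2
      rw [hdom] at this
      exact this.1
  exact h2.congr fun q hq => hfl _ hq.2

end param

end Claimed.Agent.R316
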