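import Claimed.Agent.R316.Base.Tub.Inv
import Claimed.Agent.R316.Pack003
import Claimed.Agent.R316.Base.RGeo.Defs
import Claimed.Agent.R316.Base.Geod.Basic
import Claimed.Agent.R316.Pack011

/-!
# `BP-G3` part 4: the geodesic spray on the tangent bundle `T𝓜 ⊆ V × V`; the geodesic flow

* `𝓜.TM = {(x, v) | x ∈ carrier, v ∈ T_x M}`, a closed subset of `V × V`; `tparam Φ (z, a) = (Φ z, dΦ_z a)`.
* `accel h Φ z a = D²Φ_z(a,a) - dΦ_z (Γ_z(a,a))` (`Γ = chris (h Φ)`): the ambient acceleration of the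
  geodesic with coordinate velocity `a`; independent of the parametrisation (`accel_eq`).
* `gspray 𝓜 h (x, v) = (v, accel)`: a smooth field tangent to `𝓜.TM` (`tanField_gspray`).
* THE GEODESIC FLOW is `ODE.fl (gspray 𝓜 h) 𝓜.TM`, domain `gdom 𝓜 h = ODE.dom (gspray 𝓜 h) 𝓜.TM`;
  `geo 𝓜 h x v t`, `geoV 𝓜 h x v t` are its two components, `hexp 𝓜 h x v = geo 𝓜 h x v 1`.
* its integral curves are exactly the geodesics (`IsGeodesic`, `RGeo/Defs.lean`).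

Only `IsMetric 𝓜 h` is used (for a non Kaehler `h` these are the geodesics of the Chern connection).

PLANS.
* `chris_trans`: `H^Φ = Jᴴ (H^Ψ ∘ τ) J` (`IsHForm.compat`), `J = jac τ` holomorphic: `dz i` of the
  entries by the product rule (`dz` of `conj (J ..)` vanishes), `dz i (H^Ψ ∘ τ) = ∑ (dz p H^Ψ) J p i`.
* `accel_eq`: `Φ = Ψ ∘ τ` near `z`; second derivative of a composition + `chris_trans`.
* `isClosed_TM`: `(x_k, v_k) → (x, v)`: `x ∈ M`; with the smooth local left inverse `ρ` of `Φ`: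
  `a_k = dρ_{x_k} v_k → dρ_x v =: a`, `v = lim dΦ_{z_k} a_k = dΦ_z a`.
* `tanField_gspray`: `LocExt`: `(y, w) ↦ (w, accel h Φ (ρ y) (dρ_y w))`; `LocInt`: `tparam Φ ∘` (flow
  line of the chart spray `cspray h Φ` on `U ×ˢ univ`), chain rule.
* the rest: `Tub.TanField` API.

Leaves: `G3-SPRAY-A` (section 1), `G3-SPRAY-B` (section 2), `G3-SPRAY-C` (section 3).
-/

set_option autoImplicit false
set_option linter.unusedSectionVars false
set_option linter.unusedVariables false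
open scoped ContDiff ComplexOrder Topology Matrix

namespace Claimed.Agent.R316

open Claimed.Agent.R316.ODE Claimed.Agent.R316.Tub

variable {V : Type} [NormedAddCommGroup V] [NormedSpace ℝ V]
variable {ι : Type} [Fintype ι] [DecidableEq ι]

/-! ### 1. tangent bundle, acceleration, spray -/

/-- the tangent bundle as a subset of `V × V`. -/
def CMfd.TM (𝓜 : CMfd V ι) : Set (V × V) := {p | p.1 ∈ 𝓜.carrier ∧ p.2 ∈ 𝓜.tangent p.1}

/-- the parametrisation of the tangent bundle over `Φ`. -/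
noncomputable def tparam (Φ : CE ι → V) (q : CE ι × CE ι) : V × V := (Φ q.1, fderiv ℝ Φ q.1 q.2)

/-- Christoffel symbols of `h` in the parametrisation `Φ`, as a continuous bilinear map. -/
noncomputable def chrisB (h : HFam V ι) (Φ : CE ι → V) (z : CE ι) : CE ι →L[ℝ] CE ι →L[ℝ] CE ι :=
  mkBil (chrisₗ (h Φ) z)

/-- ambient acceleration of the geodesic through `Φ z` with coordinate velocity `a`. -/
noncomputable def accel (h : HFam V ι) (Φ : CE ι → V) (z a : CE ι) : V :=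
  fderiv ℝ (fderiv ℝ Φ) z a a - fderiv ℝ Φ z (chris (h Φ) z a a)

/-- the geodesic spray, a vector field on `V × V` (meaningful on `𝓜.TM`). -/
noncomputable def gspray (𝓜 : CMfd V ι) (h : HFam V ι) : V × V → V × V :=
  fun p => (p.2, accel h (𝓜.pΦ p.1) (𝓜.co p.1) (coVec (𝓜.pΦ p.1) (𝓜.co p.1) p.2))

/-- the geodesic spray in the chart: `z'' = - Γ_z(z', z')`. -/
noncomputable def cspray (h : HFam V ι) (Φ : CE ι → V) : CE ι × CE ι → CE ι × CE ι :=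
  ODE.spray (fun z => - chrisB h Φ z)

/-- domain of the geodesic flow: `(t, (x, v))`. -/
def gdom (𝓜 : CMfd V ι) (h : HFam V ι) : Set (ℝ × V × V) := dom (gspray 𝓜 h) 𝓜.TM

/-- the geodesic with initial point `x` and initial velocity `v`. -/
noncomputable def geo (𝓜 : CMfd V ι) (h : HFam V ι) (x v : V) (t : ℝ) : V :=
  (fl (gspray 𝓜 h) 𝓜.TM t (x, v)).1

/-- its velocity. -/
noncomputable def geoV (𝓜 : CMfd V ι) (h : HFam V ι) (x v : V) (t : ℝ) : V :=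
  (fl (gspray 𝓜 h) 𝓜.TM t (x, v)).2

/-- the exponential map. -/
noncomputable def hexp (𝓜 : CMfd V ι) (h : HFam V ι) (x v : V) : V := geo 𝓜 h x v 1

section bundle

variable {𝓜 : CMfd V ι} {h : HFam V ι} {Φ Ψ : CE ι → V} {U W : Set (CE ι)} {z w a b : CE ι}

theorem chrisB_apply (h : HFam V ι) (Φ : CE ι → V) (z a b : CE ι) :
    chrisB h Φ z a b = chris (h Φ) z a b := rfl

theorem kgeo_Γ (h : HFam V ι) (Φ : CE ι → V) (U : Set (CE ι)) : (kgeo h Φ U).Γ = chrisB h Φ := rfl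

theorem CMfd.tparam_mem_TM (hΦ : 𝓜.IsHol Φ U) (hz : z ∈ U) (a : CE ι) :
    tparam Φ (z, a) ∈ 𝓜.TM := by
  refine ⟨CMfd.mem_carrier hΦ hz, ?_⟩
  show fderiv ℝ Φ z a ∈ 𝓜.tangent (Φ z)
  rw [CMfd.tangent_eq hΦ hz]
  exact ⟨a, rfl⟩

theorem CMfd.exists_of_mem_TM (hΦ : 𝓜.IsHol Φ U) (hz : z ∈ U) {v : V} (hv : (Φ z, v) ∈ 𝓜.TM) :
    ∃ a : CE ι, v = fderiv ℝ Φ z a := by
  have h2 : v ∈ 𝓜.tangent (Φ z) := hv.2
  rw [CMfd.tangent_eq hΦ hz] at h2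
  obtain ⟨a, ha⟩ := h2
  exact ⟨a, ha.symm⟩

theorem CMfd.zero_mem_TM {x : V} (hx : x ∈ 𝓜.carrier) : (x, (0 : V)) ∈ 𝓜.TM :=
  ⟨hx, ⟨0, map_zero _⟩⟩

theorem CMfd.smul_mem_TM {x v : V} (hv : (x, v) ∈ 𝓜.TM) (c : ℝ) : (x, c • v) ∈ 𝓜.TM := by
  obtain ⟨a, ha⟩ := hv.2
  exact ⟨hv.1, ⟨c • a, by rw [map_smul]; exact congrArg _ ha⟩⟩

theorem CMfd.add_mem_TM {x v v' : V} (hv : (x, v) ∈ 𝓜.TM) (hv' : (x, v') ∈ 𝓜.TM) :
    (x, v + v') ∈ 𝓜.TM := by
  obtain ⟨a, ha⟩ := hv.2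
  obtain ⟨a', ha'⟩ := hv'.2
  refine ⟨hv.1, ⟨a + a', ?_⟩⟩
  rw [map_add]
  exact congrArg₂ _ ha ha'

/-- **local structure of the tangent bundle**: a smooth ambient map `ρ` near `Φ z` with values in `U`
which inverts `Φ` on the manifold, and whose derivative inverts `dΦ` on tangent vectors. -/
theorem CMfd.exists_tangent_chart [FiniteDimensional ℝ V] (hΦ : 𝓜.IsHol Φ U) (hz : z ∈ U) :
    ∃ (O : Set V) (ρ : V → CE ι), IsOpen O ∧ Φ z ∈ O ∧ ContDiffOn ℝ ∞ ρ O ∧ Set.MapsTo ρ O U ∧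
      (∀ y ∈ 𝓜.carrier ∩ O, Φ (ρ y) = y) ∧
      ∀ p ∈ 𝓜.TM, p.1 ∈ O → tparam Φ (ρ p.1, fderiv ℝ ρ p.1 p.2) = p := by
  have hp := 𝓜.isParam hΦ
  obtain ⟨O₀, ρ, hO₀, hzO₀, hρ, hρeq⟩ := hp.exists_smooth_leftInverse hz
  have hOo : IsOpen (O₀ ∩ ρ ⁻¹' U) := hρ.continuousOn.isOpen_inter_preimage hO₀ hp.isOpen
  have hinv : ∀ y ∈ 𝓜.carrier ∩ O₀, ρ y ∈ U ∧ Φ (ρ y) = y := fun y hy => by
    obtain ⟨h1, h2⟩ := hρeq y hy
    rw [h2]
    exact ⟨hp.invFunOn_mem h1, hp.rightInv h1⟩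
  refine ⟨O₀ ∩ ρ ⁻¹' U, ρ, hOo, ⟨hzO₀, (hinv _ ⟨hp.mem hz, hzO₀⟩).1⟩, hρ.mono Set.inter_subset_left,
    fun y hy => hy.2, fun y hy => (hinv y ⟨hy.1, hy.2.1⟩).2, ?_⟩
  rintro ⟨y, w⟩ hyw hyO
  have hyM : y ∈ 𝓜.carrier := hyw.1
  obtain ⟨hU', hΦρ⟩ := hinv y ⟨hyM, hyO.1⟩
  have hyw' : (Φ (ρ y), w) ∈ 𝓜.TM := by rw [hΦρ]; exact hyw
  obtain ⟨a, ha⟩ := CMfd.exists_of_mem_TM hΦ hU' hyw'
  -- `ρ ∘ Φ = id` near `ρ y`
  have hev : (ρ ∘ Φ) =ᶠ[𝓝 (ρ y)] id := by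
    have h1 : ∀ᶠ u in 𝓝 (ρ y), Φ u ∈ O₀ := by
      have hc : ContinuousAt Φ (ρ y) := (hp.differentiableAt hU').continuousAt
      refine hc.eventually ?_
      rw [hΦρ]
      exact hO₀.mem_nhds hyO.1
    filter_upwards [h1, hp.isOpen.mem_nhds hU'] with u hu huU
    show ρ (Φ u) = u
    rw [(hρeq _ ⟨hp.mem huU, hu⟩).2, hp.leftInv huU]
  have hρd : DifferentiableAt ℝ ρ (Φ (ρ y)) := by
    rw [hΦρ]
    exact ((hρ y hyO.1).contDiffAt (hO₀.mem_nhds hyO.1)).differentiableAt (by simp)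
  have hcomp : fderiv ℝ ρ y (fderiv ℝ Φ (ρ y) a) = a := by
    have h2 := fderiv_comp (ρ y) hρd (hp.differentiableAt hU')
    rw [hev.fderiv_eq, fderiv_id, hΦρ] at h2
    have h3 := congrArg (fun L : CE ι →L[ℝ] CE ι => L a) h2
    simpa using h3.symm
  show (Φ (ρ y), fderiv ℝ Φ (ρ y) (fderiv ℝ ρ y w)) = (y, w)
  rw [hΦρ, ha, hcomp]

theorem CMfd.isClosed_TM [FiniteDimensional ℝ V] (hM : IsClosed 𝓜.carrier) : IsClosed 𝓜.TM := by
  refine isClosed_of_closure_subset ?_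
  rintro ⟨x, v⟩ hxv
  have hx : x ∈ 𝓜.carrier := by
    have h1 : x ∈ closure 𝓜.carrier := by
      have := (continuous_fst (X := V) (Y := V)).closure_preimage_subset 𝓜.carrier
      exact this (closure_mono (fun p hp => hp.1) hxv)
    rwa [hM.closure_eq] at h1
  obtain ⟨Φ, U, hΦ, z, hz, rfl⟩ := 𝓜.cover x hx
  have hp := 𝓜.isParam hΦ
  obtain ⟨O, ρ, hO, hzO, hρ, hρU, -, hρT⟩ := CMfd.exists_tangent_chart hΦ hz
  have hfreq : ∃ᶠ p in 𝓝 (Φ z, v), p ∈ 𝓜.TM := mem_closure_iff_frequently.1 hxv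
  -- `P p = tparam Φ (ρ p.1, dρ p.2)` is continuous at `(Φ z, v)`
  have hOV : O ×ˢ (Set.univ : Set V) ∈ 𝓝 (Φ z, v) := (hO.prod isOpen_univ).mem_nhds ⟨hzO, trivial⟩
  have hcont : ContinuousAt (fun p : V × V => tparam Φ (ρ p.1, fderiv ℝ ρ p.1 p.2)) (Φ z, v) := by
    have hρ1 : ContinuousAt (fun p : V × V => ρ p.1) (Φ z, v) :=
      ContinuousAt.comp (f := Prod.fst) (g := ρ)
        ((hρ _ hzO).contDiffAt (hO.mem_nhds hzO)).continuousAt continuousAt_fst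
    have hρ2 : ContinuousAt (fun p : V × V => fderiv ℝ ρ p.1) (Φ z, v) :=
      ContinuousAt.comp (f := Prod.fst) (g := fderiv ℝ ρ)
        ((((hρ _ hzO).contDiffAt (hO.mem_nhds hzO)).fderiv_right (m := 0) (by simp)).continuousAt)
        continuousAt_fst
    have hρ3 : ContinuousAt (fun p : V × V => fderiv ℝ ρ p.1 p.2) (Φ z, v) :=
      hρ2.clm_apply continuousAt_snd
    have hU' : ρ (Φ z) ∈ U := hρU hzO
    have hΦ1 : ContinuousAt (fun p : V × V => Φ (ρ p.1)) (Φ z, v) :=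
      ContinuousAt.comp (f := fun p : V × V => ρ p.1) (g := Φ)
        (hp.contDiffAt hU').continuousAt hρ1
    have hΦ2 : ContinuousAt (fun p : V × V => fderiv ℝ Φ (ρ p.1)) (Φ z, v) :=
      ContinuousAt.comp (f := fun p : V × V => ρ p.1) (g := fderiv ℝ Φ)
        (((hp.contDiffAt hU').fderiv_right (m := 0) (by simp)).continuousAt) hρ1
    exact hΦ1.prodMk (hΦ2.clm_apply hρ3)
  have hlim : tparam Φ (ρ (Φ z), fderiv ℝ ρ (Φ z) v) = (Φ z, v) := by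
    by_contra hne
    have h1 : ∀ᶠ p in 𝓝 (Φ z, v), tparam Φ (ρ p.1, fderiv ℝ ρ p.1 p.2) ≠ p := by
      have h2 : ContinuousAt (fun p : V × V => (tparam Φ (ρ p.1, fderiv ℝ ρ p.1 p.2), p)) (Φ z, v) :=
        hcont.prodMk continuousAt_id
      exact h2.eventually (isClosed_diagonal.isOpen_compl.mem_nhds hne)
    obtain ⟨p, hpT, hpne, hpO⟩ := (hfreq.and_eventually (h1.and hOV)).exists
    exact hpne (hρT p hpT hpO.1)
  rw [← hlim]
  exact CMfd.tparam_mem_TM hΦ (hρU hzO) _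

/-- the velocity of a differentiable curve in the manifold is tangent. -/
theorem CMfd.deriv_mem_TM [FiniteDimensional ℝ V] {γ : ℝ → V} {t : ℝ}
    (hγ : DifferentiableAt ℝ γ t) (hM : ∀ᶠ r in 𝓝 t, γ r ∈ 𝓜.carrier) :
    (γ t, deriv γ t) ∈ 𝓜.TM := by
  have hx : γ t ∈ 𝓜.carrier := hM.self_of_nhds
  obtain ⟨Φ, U, hΦ, hxU⟩ := 𝓜.cover _ hx
  have hp := 𝓜.isParam hΦ
  obtain ⟨-, h⟩ := hp.hasFDerivAt_invFunOn_comp hγ hM hxU
  have h1 := h 1
  rw [fderiv_apply_one_eq_deriv] at h1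
  have h2 := CMfd.tparam_mem_TM hΦ (hp.invFunOn_mem hxU)
    (fderiv ℝ (Function.invFunOn Φ U ∘ γ) t 1)
  unfold tparam at h2
  rw [← h1, hp.rightInv hxU] at h2
  exact h2

/-- `∂_a H = ∑ a_i ∂_i H` (matrix of the `(1,0)` directional derivatives). -/
noncomputable def dzV (H : CE ι → Matrix ι ι ℂ) (z a : CE ι) : Matrix ι ι ℂ :=
  ∑ i, a i • dzM i H z

theorem tsp_chris_eq (H : CE ι → Matrix ι ι ℂ) (z a b : CE ι) :
    chris H z a b = WithLp.toLp 2 (((H z)⁻¹ * dzV H z a).mulVec b) := by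
  ext k
  simp only [chris, dzV, Matrix.mulVec, dotProduct, Matrix.mul_apply, Matrix.sum_apply,
    Matrix.smul_apply, dzM_apply, smul_eq_mul, Finset.sum_mul, Finset.mul_sum]
  conv_rhs => rw [Finset.sum_comm]
  refine Finset.sum_congr rfl fun l _ => ?_
  conv_rhs => rw [Finset.sum_comm]
  refine Finset.sum_congr rfl fun i _ => Finset.sum_congr rfl fun j _ => ?_
  ring

theorem tsp_fderiv_real_eq {τ : CE ι → CE ι} (hτz : DifferentiableAt ℂ τ z) (v : CE ι) :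
    fderiv ℝ τ z v = WithLp.toLp 2 ((jac τ z).mulVec v) := by
  ext k
  rw [hτz.fderiv_restrictScalars ℝ]
  exact (jac_mulVec τ v k).symm

theorem tsp_snd_fderiv {τ : CE ι → CE ι} (hτ : ∀ᶠ w in 𝓝 z, DifferentiableAt ℂ τ w) (a b : CE ι) :
    fderiv ℝ (fderiv ℝ τ) z a b = WithLp.toLp 2 ((dzV (jac τ) z a).mulVec b) := by
  have hd : DifferentiableAt ℝ (fderiv ℝ τ) z :=
    ((hol_contDiffAt_real hτ).fderiv_right (m := 1)
      (by rw [one_add_one_eq_two]; exact WithTop.coe_le_coe.2 le_top)).differentiableAt (by norm_num)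
  have h1 : fderiv ℝ (fun y => fderiv ℝ τ y b) z a = fderiv ℝ (fderiv ℝ τ) z a b := by
    rw [fderiv_clm_apply hd (differentiableAt_const b)]
    simp
  have hdb : DifferentiableAt ℝ (fun y => fderiv ℝ τ y b) z :=
    hd.clm_apply (differentiableAt_const b)
  ext k
  rw [← h1]
  have h2 : (fderiv ℝ (fun y => fderiv ℝ τ y b) z a) k
      = fderiv ℝ (fun y => (fderiv ℝ τ y b) k) z a := by
    have h3 := (((EuclideanSpace.proj k : CE ι →L[ℂ] ℂ).restrictScalars ℝ).hasFDerivAt.comp z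
      hdb.hasFDerivAt).fderiv
    have h4 := congrArg (fun L : CE ι →L[ℝ] ℂ => L a) h3
    exact h4.symm
  rw [h2]
  have h5 : (fun y => (fderiv ℝ τ y b) k) =ᶠ[𝓝 z] fun y => ∑ j, jac τ y k j * b j := by
    filter_upwards [hτ] with y hy
    rw [tsp_fderiv_real_eq hy]
    rfl
  have hJ : ∀ j, DifferentiableAt ℂ (fun y => jac τ y k j) z := fun j => differentiableAt_jac hτ k j
  have hJm : ∀ j, DifferentiableAt ℂ (fun y => jac τ y k j * b j) z := fun j =>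
    (hJ j).mul_const _
  have hS : DifferentiableAt ℂ (fun y => ∑ j, jac τ y k j * b j) z :=
    DifferentiableAt.fun_sum fun j _ => hJm j
  rw [h5.fderiv_eq, fderiv_eq_sum]
  simp only [dzb_of_differentiableAt hS, zero_mul, add_zero]
  simp only [dzV, Matrix.mulVec, dotProduct, Matrix.sum_apply, Matrix.smul_apply, dzM_apply,
    smul_eq_mul, Finset.sum_mul]
  rw [Finset.sum_comm]
  refine Finset.sum_congr rfl fun i _ => ?_
  rw [dz_sum Finset.univ (fun j y => jac τ y k j * b j) fun j _ => (hJm j).restrictScalars ℝ,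
    Finset.sum_mul]
  refine Finset.sum_congr rfl fun j _ => ?_
  rw [dz_mul_const _ ((hJ j).restrictScalars ℝ)]
  ring

/-- **chart level transformation law of the Christoffel symbols**: `H' = Jᴴ (H ∘ τ) J` near `z`. -/
theorem chris_comp_hol {H H' : CE ι → Matrix ι ι ℂ} {τ : CE ι → CE ι}
    (hτ : ∀ᶠ w in 𝓝 z, DifferentiableAt ℂ τ w) (hj : (jac τ z).det ≠ 0)
    (hH : ∀ a b, DifferentiableAt ℝ (fun y => H y a b) (τ z)) (h0 : (H (τ z)).det ≠ 0)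
    (hH' : ∀ᶠ w in 𝓝 z, H' w = (jac τ w)ᴴ * H (τ w) * jac τ w) (a b : CE ι) :
    fderiv ℝ τ z (chris H' z a b) =
      fderiv ℝ (fderiv ℝ τ) z a b + chris H (τ z) (fderiv ℝ τ z a) (fderiv ℝ τ z b) := by
  have hτz : DifferentiableAt ℂ τ z := hτ.self_of_nhds
  set J := jac τ z with hJdef
  have hJd : ∀ p q, DifferentiableAt ℂ (fun y => jac τ y p q) z := fun p q =>
    differentiableAt_jac hτ p q
  have hJr : ∀ p q, DifferentiableAt ℝ (fun y => jac τ y p q) z := fun p q =>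
    (hJd p q).restrictScalars ℝ
  have hJH : ∀ p q, DifferentiableAt ℝ (fun y => (jac τ y)ᴴ p q) z := fun p q => by
    simp only [Matrix.conjTranspose_apply]
    exact Complex.conjCLE.differentiableAt.comp z (hJr q p)
  have hHτ : ∀ p q, DifferentiableAt ℝ (fun y => H (τ y) p q) z := fun p q =>
    (hH p q).comp z (hτz.restrictScalars ℝ)
  have hP0 : ∀ i, dzM i (fun y => (jac τ y)ᴴ) z = 0 := fun i => by
    rw [dzM_conjTranspose]
    have : dzbM i (fun y => jac τ y) z = 0 := by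
      ext p q
      rw [dzbM_apply, dzb_of_differentiableAt (hJd p q)]
      rfl
    rw [this, Matrix.conjTranspose_zero]
  -- derivative of `H'`
  have hdz : ∀ i, dzM i H' z = Jᴴ * (∑ c, J c i • dzM c H (τ z)) * J
      + Jᴴ * H (τ z) * dzM i (jac τ) z := fun i => by
    rw [dzM_congr hH',
      dzM_mul (A := fun w => (jac τ w)ᴴ * H (τ w)) (B := fun w => jac τ w)
        (fun p q => differentiableAt_matMul hJH hHτ p q) hJr,
      dzM_mul (A := fun w => (jac τ w)ᴴ) (B := fun w => H (τ w)) hJH hHτ, hP0,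
      Matrix.zero_mul, zero_add, dzM_comp_hol τ hτz hH]
  have hV : dzV H' z a = Jᴴ * dzV H (τ z) (fderiv ℝ τ z a) * J
      + Jᴴ * H (τ z) * dzV (jac τ) z a := by
    simp only [dzV, hdz, smul_add, Finset.sum_add_distrib]
    congr 1
    · have e : ∑ c, (fderiv ℝ τ z a) c • dzM c H (τ z) = ∑ i, a i • ∑ c, J c i • dzM c H (τ z) := by
        simp only [Finset.smul_sum, smul_smul]
        rw [Finset.sum_comm]
        refine Finset.sum_congr rfl fun c _ => ?_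
        rw [← Finset.sum_smul]
        congr 1
        rw [tsp_fderiv_real_eq hτz]
        simp only [Matrix.mulVec, dotProduct]
        exact Finset.sum_congr rfl fun i _ => mul_comm _ _
      rw [e, Finset.mul_sum, Finset.sum_mul]
      exact Finset.sum_congr rfl fun i _ => by rw [Matrix.mul_smul, Matrix.smul_mul]
    · rw [Finset.mul_sum]
      exact Finset.sum_congr rfl fun i _ => by rw [Matrix.mul_smul]
  have hJu : IsUnit J.det := isUnit_iff_ne_zero.2 hj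
  have hJHu : IsUnit (Jᴴ).det := by
    rw [Matrix.det_conjTranspose]
    exact isUnit_iff_ne_zero.2 (star_ne_zero.2 hj)
  have hHu : IsUnit (H (τ z)).det := isUnit_iff_ne_zero.2 h0
  have hinv : J * (H' z)⁻¹ * Jᴴ = (H (τ z))⁻¹ := by
    rw [hH'.self_of_nhds, Matrix.mul_inv_rev, Matrix.mul_inv_rev, ← hJdef]
    rw [← Matrix.mul_assoc, ← Matrix.mul_assoc, Matrix.mul_nonsing_inv _ hJu, Matrix.one_mul,
      Matrix.mul_assoc, Matrix.nonsing_inv_mul _ hJHu, Matrix.mul_one]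
  have hmat : J * ((H' z)⁻¹ * dzV H' z a)
      = dzV (jac τ) z a + (H (τ z))⁻¹ * dzV H (τ z) (fderiv ℝ τ z a) * J := by
    rw [hV, Matrix.mul_add, Matrix.mul_add, add_comm]
    congr 1
    · calc J * ((H' z)⁻¹ * (Jᴴ * H (τ z) * dzV (jac τ) z a))
          = (J * (H' z)⁻¹ * Jᴴ) * H (τ z) * dzV (jac τ) z a := by
            simp only [Matrix.mul_assoc]
        _ = dzV (jac τ) z a := by
            rw [hinv, Matrix.nonsing_inv_mul _ hHu, Matrix.one_mul]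
    · calc J * ((H' z)⁻¹ * (Jᴴ * dzV H (τ z) (fderiv ℝ τ z a) * J))
          = (J * (H' z)⁻¹ * Jᴴ) * dzV H (τ z) (fderiv ℝ τ z a) * J := by
            simp only [Matrix.mul_assoc]
        _ = _ := by rw [hinv]
  rw [tsp_fderiv_real_eq hτz (chris H' z a b), tsp_chris_eq H' z a b, tsp_snd_fderiv hτ,
    tsp_chris_eq H (τ z), tsp_fderiv_real_eq hτz b, ← WithLp.toLp_add]
  congr 1
  rw [Matrix.mulVec_mulVec, hmat, Matrix.add_mulVec, Matrix.mulVec_mulVec]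

theorem contDiffOn_chrisB (hh : IsMetric 𝓜 h) (hΦ : 𝓜.IsHol Φ U) :
    ContDiffOn ℝ ∞ (chrisB h Φ) U := by
  have hU := CMfd.isOpen_dom hΦ
  rw [contDiffOn_clm_apply]
  intro a
  rw [contDiffOn_clm_apply]
  intro b
  show ContDiffOn ℝ ∞ (fun z => chris (h Φ) z a b) U
  rw [contDiffOn_piLp]
  intro k
  show ContDiffOn ℝ ∞ (fun z => ∑ l, ∑ i, ∑ j,
    (h Φ z)⁻¹ k l * dz i (fun y => h Φ y l j) z * a i * b j) U
  refine ContDiffOn.sum fun l _ => ContDiffOn.sum fun i _ => ContDiffOn.sum fun j _ => ?_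
  exact (((contDiffOn_matInv_of_posDef (hh.smooth hΦ) (hh.posDef hΦ) k l).mul
    (contDiffOn_dz hU (hh.smooth hΦ l j))).mul contDiffOn_const).mul contDiffOn_const

/-- **transformation law of the Christoffel symbols** under a holomorphic transition `τ`:
`dτ (Γ^Φ(a,b)) = D²τ(a,b) + Γ^Ψ(dτ a, dτ b)`. -/
theorem chris_trans (hh : IsMetric 𝓜 h) (hΦ : 𝓜.IsHol Φ U) (hΨ : 𝓜.IsHol Ψ W)
    (hz : z ∈ U ∩ Φ ⁻¹' (Ψ '' W)) (a b : CE ι) :
    fderiv ℝ (Function.invFunOn Ψ W ∘ Φ) z (chris (h Φ) z a b) =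
      fderiv ℝ (fderiv ℝ (Function.invFunOn Ψ W ∘ Φ)) z a b +
        chris (h Ψ) ((Function.invFunOn Ψ W ∘ Φ) z)
          (fderiv ℝ (Function.invFunOn Ψ W ∘ Φ) z a) (fderiv ℝ (Function.invFunOn Ψ W ∘ Φ) z b) := by
  have hw := CMfd.trans_mem hΦ hΨ hz
  exact chris_comp_hol (CMfd.trans_eventually_differentiableAt hΦ hΨ hz)
    (CMfd.det_jac_trans_ne_zero hΦ hΨ hz)
    (fun p q => ((hh.smooth hΨ p q _ hw).contDiffAt
      ((CMfd.isOpen_dom hΨ).mem_nhds hw)).differentiableAt (by simp))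
    (hh.det_ne_zero hΨ hw) (hh.toIsHForm.eventually_compat hΦ hΨ hz) a b

/-- second derivative of a composition. -/
theorem tsp_snd_fderiv_comp {E F G : Type*} [NormedAddCommGroup E] [NormedSpace ℝ E]
    [NormedAddCommGroup F] [NormedSpace ℝ F] [NormedAddCommGroup G] [NormedSpace ℝ G]
    {g : F → G} {f : E → F} {x : E} (hg : ContDiffAt ℝ 2 g (f x)) (hf : ContDiffAt ℝ 2 f x)
    (a b : E) :
    fderiv ℝ (fderiv ℝ (g ∘ f)) x a b =
      fderiv ℝ (fderiv ℝ g) (f x) (fderiv ℝ f x a) (fderiv ℝ f x b)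
        + fderiv ℝ g (f x) (fderiv ℝ (fderiv ℝ f) x a b) := by
  have h2 : (2 : WithTop ℕ∞) ≠ ∞ := by
    intro h
    have : ((2 : ℕ∞) : WithTop ℕ∞) = ((⊤ : ℕ∞) : WithTop ℕ∞) := h
    exact absurd (WithTop.coe_injective this) (by decide)
  have e : fderiv ℝ (g ∘ f) =ᶠ[𝓝 x] fun y => (fderiv ℝ g (f y)).comp (fderiv ℝ f y) := by
    filter_upwards [hf.continuousAt.eventually (hg.eventually h2), hf.eventually h2] with y h1 h3
    exact fderiv_comp y (h1.differentiableAt (by norm_num)) (h3.differentiableAt (by norm_num))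
  have hdg : DifferentiableAt ℝ (fderiv ℝ g) (f x) :=
    (hg.fderiv_right (m := 1) (by norm_num)).differentiableAt (by norm_num)
  have hdf : DifferentiableAt ℝ (fderiv ℝ f) x :=
    (hf.fderiv_right (m := 1) (by norm_num)).differentiableAt (by norm_num)
  have hc : HasFDerivAt (fun y => fderiv ℝ g (f y))
      ((fderiv ℝ (fderiv ℝ g) (f x)).comp (fderiv ℝ f x)) x :=
    hdg.hasFDerivAt.comp x (hf.differentiableAt (by norm_num)).hasFDerivAt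
  have h3 := (hc.clm_comp hdf.hasFDerivAt).fderiv
  rw [e.fderiv_eq, h3]
  simp [add_comm]

/-- the acceleration does not depend on the parametrisation. -/
theorem accel_eq (hh : IsMetric 𝓜 h) (hΦ : 𝓜.IsHol Φ U) (hΨ : 𝓜.IsHol Ψ W) (hz : z ∈ U)
    (hw : w ∈ W) (hzw : Φ z = Ψ w) (hab : fderiv ℝ Φ z a = fderiv ℝ Ψ w b) :
    accel h Φ z a = accel h Ψ w b := by
  have hz' : z ∈ U ∩ Φ ⁻¹' (Ψ '' W) := ⟨hz, ⟨w, hw, hzw.symm⟩⟩
  have hτz : (Function.invFunOn Ψ W ∘ Φ) z = w := CMfd.trans_eq hΦ hΨ hw hzw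
  have hτd := CMfd.trans_differentiableAt hΦ hΨ hz'
  have hch := CMfd.fderiv_eq_comp_trans hΦ hΨ hz'
  have hev := CMfd.eventually_eq_comp_trans hΦ hΨ hz'
  have hτs := CMfd.trans_contDiffAt hΦ hΨ hz'
  have hct := chris_trans hh hΦ hΨ hz' a a
  generalize Function.invFunOn Ψ W ∘ Φ = τ at hτz hτd hch hev hτs hct
  have hreal : ∀ v, fderiv ℝ τ z v = fderiv ℂ τ z v := fun v => by
    rw [hτd.fderiv_restrictScalars ℝ]; rfl
  have hchain : ∀ v, fderiv ℝ Φ z v = fderiv ℝ Ψ w (fderiv ℝ τ z v) := fun v => by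
    rw [hch v, hreal, hτz]
  have hb : fderiv ℝ τ z a = b :=
    (𝓜.isParam hΨ).immersion w hw ((hchain a).symm.trans hab)
  have h2le : (2 : WithTop ℕ∞) ≤ ∞ := WithTop.coe_le_coe.2 le_top
  have hsnd : fderiv ℝ (fderiv ℝ Φ) z a a =
      fderiv ℝ (fderiv ℝ Ψ) w b b + fderiv ℝ Ψ w (fderiv ℝ (fderiv ℝ τ) z a a) := by
    rw [hev.fderiv.fderiv_eq, tsp_snd_fderiv_comp (by
      rw [hτz]; exact ((𝓜.isParam hΨ).contDiffAt hw).of_le h2le) (hτs.of_le h2le), hτz, hb]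
  rw [hτz, hb] at hct
  unfold accel
  rw [hsnd, hchain, hct, map_add]
  abel

theorem gspray_tparam (hh : IsMetric 𝓜 h) (hΦ : 𝓜.IsHol Φ U) (hz : z ∈ U) (a : CE ι) :
    gspray 𝓜 h (tparam Φ (z, a)) = (fderiv ℝ Φ z a, accel h Φ z a) := by
  have hx : Φ z ∈ 𝓜.carrier := CMfd.mem_carrier hΦ hz
  show (fderiv ℝ Φ z a, accel h (𝓜.pΦ (Φ z)) (𝓜.co (Φ z))
    (coVec (𝓜.pΦ (Φ z)) (𝓜.co (Φ z)) (fderiv ℝ Φ z a))) = _
  congr 1
  refine (accel_eq hh hΦ (𝓜.isHol_pΦ hx) hz (𝓜.co_mem hx) (𝓜.pΦ_co hx).symm ?_).symm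
  have ht : fderiv ℝ Φ z a ∈ 𝓜.tangent (Φ z) := (CMfd.tparam_mem_TM hΦ hz a).2
  exact (Function.invFun_eq ht).symm

theorem contDiffOn_cspray (hh : IsMetric 𝓜 h) (hΦ : 𝓜.IsHol Φ U) :
    ContDiffOn ℝ ∞ (cspray h Φ) (U ×ˢ (Set.univ : Set (CE ι))) :=
  contDiffOn_spray (contDiffOn_chrisB hh hΦ).neg

/-- `tparam Φ` relates the chart spray to the spray. -/
theorem hasFDerivAt_tparam (hΦ : 𝓜.IsHol Φ U) (hz : z ∈ U) (a : CE ι) :
    ∃ L : CE ι × CE ι →L[ℝ] V × V, HasFDerivAt (tparam Φ) L (z, a) ∧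
      ∀ p : CE ι × CE ι, L p =
        (fderiv ℝ Φ z p.1, fderiv ℝ (fderiv ℝ Φ) z p.1 a + fderiv ℝ Φ z p.2) := by
  have hp := 𝓜.isParam hΦ
  have hd : DifferentiableAt ℝ Φ z := hp.differentiableAt hz
  have hdd : DifferentiableAt ℝ (fderiv ℝ Φ) z :=
    ((hp.contDiffAt hz).fderiv_right (m := 1)
      (by rw [one_add_one_eq_two]; exact WithTop.coe_le_coe.2 le_top)).differentiableAt (by norm_num)
  have h1 : HasFDerivAt (fun q : CE ι × CE ι => Φ q.1)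
      ((fderiv ℝ Φ z).comp (ContinuousLinearMap.fst ℝ (CE ι) (CE ι))) (z, a) :=
    HasFDerivAt.comp (z, a) (g := Φ) (f := Prod.fst) hd.hasFDerivAt hasFDerivAt_fst
  have h2 : HasFDerivAt (fun q : CE ι × CE ι => fderiv ℝ Φ q.1)
      ((fderiv ℝ (fderiv ℝ Φ) z).comp (ContinuousLinearMap.fst ℝ (CE ι) (CE ι))) (z, a) :=
    HasFDerivAt.comp (z, a) (g := fderiv ℝ Φ) (f := Prod.fst) hdd.hasFDerivAt hasFDerivAt_fst
  have h3 := h2.clm_apply (hasFDerivAt_snd (𝕜 := ℝ) (p := ((z, a) : CE ι × CE ι)))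
  refine ⟨_, h1.prodMk h3, fun p => ?_⟩
  simp [add_comm]

/-- smoothness of the acceleration in `(z, a)`. -/
theorem contDiffOn_accel (hh : IsMetric 𝓜 h) (hΦ : 𝓜.IsHol Φ U) :
    ContDiffOn ℝ ∞ (fun q : CE ι × CE ι => accel h Φ q.1 q.2)
      (U ×ˢ (Set.univ : Set (CE ι))) := by
  have hp := 𝓜.isParam hΦ
  have hU := hp.isOpen
  have h1 : ContDiffOn ℝ ∞ (fderiv ℝ Φ) U := hp.smooth.fderiv_of_isOpen hU (by simp)
  have h2 : ContDiffOn ℝ ∞ (fderiv ℝ (fderiv ℝ Φ)) U := h1.fderiv_of_isOpen hU (by simp)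
  have hfst : Set.MapsTo (Prod.fst : CE ι × CE ι → CE ι) (U ×ˢ (Set.univ : Set (CE ι))) U :=
    fun q hq => hq.1
  have h1' := h1.comp contDiffOn_fst hfst
  have h2' := h2.comp contDiffOn_fst hfst
  have h3' := (contDiffOn_chrisB hh hΦ).comp contDiffOn_fst hfst
  exact ((h2'.clm_apply contDiffOn_snd).clm_apply contDiffOn_snd).sub
    (h1'.clm_apply ((h3'.clm_apply contDiffOn_snd).clm_apply contDiffOn_snd))

theorem fderiv_tparam (hΦ : 𝓜.IsHol Φ U) (hz : z ∈ U) (a : CE ι) :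
    HasFDerivAt (tparam Φ) (fderiv ℝ (tparam Φ) (z, a)) (z, a) ∧
      ∀ p : CE ι × CE ι, fderiv ℝ (tparam Φ) (z, a) p =
        (fderiv ℝ Φ z p.1, fderiv ℝ (fderiv ℝ Φ) z p.1 a + fderiv ℝ Φ z p.2) := by
  obtain ⟨L, hL, hLp⟩ := hasFDerivAt_tparam hΦ hz a
  rw [hL.fderiv]
  exact ⟨hL, hLp⟩

/-- the chart spray and the spray are `tparam Φ`-related. -/
theorem fderiv_tparam_cspray (hh : IsMetric 𝓜 h) (hΦ : 𝓜.IsHol Φ U) {q : CE ι × CE ι}
    (hq : q ∈ U ×ˢ (Set.univ : Set (CE ι))) :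
    fderiv ℝ (tparam Φ) q (cspray h Φ q) = gspray 𝓜 h (tparam Φ q) := by
  obtain ⟨z, a⟩ := q
  have hz : z ∈ U := hq.1
  rw [(fderiv_tparam hΦ hz a).2, gspray_tparam hh hΦ hz]
  show (fderiv ℝ Φ z a, fderiv ℝ (fderiv ℝ Φ) z a a + fderiv ℝ Φ z ((-(chrisB h Φ z)) a a)) = _
  unfold accel
  simp [chrisB_apply, sub_eq_add_neg]

theorem tanField_gspray [FiniteDimensional ℝ V] (hM : IsClosed 𝓜.carrier) (hh : IsMetric 𝓜 h) :
    TanField 𝓜.TM (gspray 𝓜 h) := by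
  refine ⟨CMfd.isClosed_TM hM, ?_, ?_⟩
  · rintro ⟨x, v⟩ hxv
    obtain ⟨Φ, U, hΦ, z, hz, rfl⟩ := 𝓜.cover x hxv.1
    obtain ⟨O, ρ, hO, hzO, hρ, hρU, -, hρT⟩ := CMfd.exists_tangent_chart hΦ hz
    refine ⟨O ×ˢ Set.univ, (hO.prod isOpen_univ).mem_nhds ⟨hzO, trivial⟩,
      fun p => (p.2, accel h Φ (ρ p.1) (fderiv ℝ ρ p.1 p.2)), ?_, ?_⟩
    · have hfst : Set.MapsTo (Prod.fst : V × V → V) (O ×ˢ (Set.univ : Set V)) O := fun q hq => hq.1
      have h1 : ContDiffOn ℝ ∞ (fun p : V × V => ρ p.1) (O ×ˢ (Set.univ : Set V)) :=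
        hρ.comp contDiffOn_fst hfst
      have h2 : ContDiffOn ℝ ∞ (fun p : V × V => fderiv ℝ ρ p.1 p.2) (O ×ˢ (Set.univ : Set V)) :=
        ((hρ.fderiv_of_isOpen hO (by simp)).comp contDiffOn_fst hfst).clm_apply contDiffOn_snd
      refine contDiffOn_snd.prodMk ?_
      exact (contDiffOn_accel hh hΦ).comp (h1.prodMk h2) (fun p hp => ⟨hρU hp.1, trivial⟩)
    · rintro p ⟨hpO, hpT⟩
      have h1 := hρT p hpT hpO.1
      have h2 := gspray_tparam hh hΦ (hρU hpO.1) (fderiv ℝ ρ p.1 p.2)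
      rw [h1] at h2
      have h3 : fderiv ℝ Φ (ρ p.1) (fderiv ℝ ρ p.1 p.2) = p.2 := congrArg Prod.snd h1
      rw [h2, h3]
  · rintro ⟨x, v⟩ hxv
    obtain ⟨Φ, U, hΦ, z, hz, rfl⟩ := 𝓜.cover x hxv.1
    obtain ⟨a, rfl⟩ := CMfd.exists_of_mem_TM hΦ hz hxv
    have hΩ : IsOpen (U ×ˢ (Set.univ : Set (CE ι))) := (CMfd.isOpen_dom hΦ).prod isOpen_univ
    have hf : ContDiffOn ℝ 1 (cspray h Φ) (U ×ˢ (Set.univ : Set (CE ι))) :=
      (contDiffOn_cspray hh hΦ).of_le (WithTop.coe_le_coe.2 le_top)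
    obtain ⟨ε, hε, hdom⟩ := ODE.exists_pos_forall_mem_dom hΩ hf (K := {(z, a)})
      isCompact_singleton (by
        rintro _ rfl
        exact ⟨hz, trivial⟩)
    refine ⟨ε, hε, fun t => tparam Φ (fl (cspray h Φ) (U ×ˢ (Set.univ : Set (CE ι))) t (z, a)),
      by simp only [fl_zero]; rfl, fun t ht => ?_⟩
    have hd : (t, (z, a)) ∈ dom (cspray h Φ) (U ×ˢ (Set.univ : Set (CE ι))) :=
      hdom _ rfl t (abs_le.2 ⟨ht.1.le, ht.2.le⟩)
    have hq := fl_mem hd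
    refine ⟨CMfd.tparam_mem_TM hΦ hq.1 _, ?_⟩
    rw [← fderiv_tparam_cspray hh hΦ hq]
    exact (fderiv_tparam hΦ hq.1 _).1.comp_hasDerivAt t (ODE.hasDerivAt_fl hΩ hf hd)

end bundle

/-! ### 2. the geodesic flow -/

section flow

variable [FiniteDimensional ℝ V]
variable {𝓜 : CMfd V ι} {h : HFam V ι} {Φ Ψ : CE ι → V} {U W : Set (CE ι)} {z a : CE ι}
  {x v : V} {t s : ℝ}

theorem mem_TM_of_mem_gdom (hd : (t, (x, v)) ∈ gdom 𝓜 h) : (x, v) ∈ 𝓜.TM :=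
  mem_of_mem_dom hd

theorem zero_mem_gdom : ((0 : ℝ), (x, v)) ∈ gdom 𝓜 h ↔ (x, v) ∈ 𝓜.TM := zero_mem_dom

theorem geo_zero : geo 𝓜 h x v 0 = x := by simp [geo, fl_zero]

theorem geoV_zero : geoV 𝓜 h x v 0 = v := by simp [geoV, fl_zero]

theorem geo_mem (hd : (t, (x, v)) ∈ gdom 𝓜 h) : geo 𝓜 h x v t ∈ 𝓜.carrier := (fl_mem hd).1

theorem geo_geoV_mem_TM (hd : (t, (x, v)) ∈ gdom 𝓜 h) :
    (geo 𝓜 h x v t, geoV 𝓜 h x v t) ∈ 𝓜.TM := fl_mem hd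

theorem mem_gdom_of_mem_uIcc (hd : (t, (x, v)) ∈ gdom 𝓜 h) (hs : s ∈ Set.uIcc 0 t) :
    (s, (x, v)) ∈ gdom 𝓜 h := mem_dom_of_mem_uIcc hd hs

theorem hasDerivAt_geo (hM : IsClosed 𝓜.carrier) (hh : IsMetric 𝓜 h)
    (hd : (t, (x, v)) ∈ gdom 𝓜 h) : HasDerivAt (geo 𝓜 h x v) (geoV 𝓜 h x v t) t :=
  ((tanField_gspray hM hh).hasDerivAt_fl hd).fst

theorem deriv_geo (hM : IsClosed 𝓜.carrier) (hh : IsMetric 𝓜 h)
    (hd : (t, (x, v)) ∈ gdom 𝓜 h) : deriv (geo 𝓜 h x v) t = geoV 𝓜 h x v t :=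
  (hasDerivAt_geo hM hh hd).deriv

/-- the domain is relatively open and the flow is the restriction of a smooth ambient map. -/
theorem exists_contDiffOn_geo (hM : IsClosed 𝓜.carrier) (hh : IsMetric 𝓜 h) :
    ∃ (D : Set (ℝ × V × V)) (G : ℝ × V × V → V × V), IsOpen D ∧ ContDiffOn ℝ ∞ G D ∧
      gdom 𝓜 h = D ∩ (Set.univ ×ˢ 𝓜.TM) ∧
      ∀ p ∈ gdom 𝓜 h, (geo 𝓜 h p.2.1 p.2.2 p.1, geoV 𝓜 h p.2.1 p.2.2 p.1) = G p := by
  obtain ⟨D, G, hD, hG, hdom, hfl⟩ := (tanField_gspray hM hh).exists_contDiffOn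
  exact ⟨D, G, hD, hG, hdom, fun p hp => hfl p hp⟩

/-- group law. -/
theorem geo_add (hM : IsClosed 𝓜.carrier) (hh : IsMetric 𝓜 h) (hd : (t, (x, v)) ∈ gdom 𝓜 h) :
    ((s, (geo 𝓜 h x v t, geoV 𝓜 h x v t)) ∈ gdom 𝓜 h ↔ (s + t, (x, v)) ∈ gdom 𝓜 h) ∧
    ((s + t, (x, v)) ∈ gdom 𝓜 h →
      geo 𝓜 h (geo 𝓜 h x v t) (geoV 𝓜 h x v t) s = geo 𝓜 h x v (s + t) ∧
      geoV 𝓜 h (geo 𝓜 h x v t) (geoV 𝓜 h x v t) s = geoV 𝓜 h x v (s + t)) := by
  have hX := tanField_gspray hM hh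
  have hiff : (s, fl (gspray 𝓜 h) 𝓜.TM t (x, v)) ∈ dom (gspray 𝓜 h) 𝓜.TM ↔
      (s + t, (x, v)) ∈ dom (gspray 𝓜 h) 𝓜.TM :=
    ⟨fun h' => (hX.fl_add hd h').1, fun h' => hX.mem_dom_fl hd h'⟩
  refine ⟨hiff, fun h' => ?_⟩
  have h2 := (hX.fl_add hd (hiff.2 h')).2
  exact ⟨(congrArg Prod.fst h2).symm, (congrArg Prod.snd h2).symm⟩

theorem accel_smul (h : HFam V ι) (Φ : CE ι → V) (z a : CE ι) (c : ℝ) :
    accel h Φ z (c • a) = c • c • accel h Φ z a := by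
  unfold accel
  rw [← chrisB_apply, ← chrisB_apply]
  simp only [map_smul, smul_apply, smul_sub]

theorem gspray_smul (hh : IsMetric 𝓜 h) (hv : (x, v) ∈ 𝓜.TM) (c : ℝ) :
    gspray 𝓜 h (x, c • v) = (c • v, c • c • (gspray 𝓜 h (x, v)).2) := by
  obtain ⟨Φ, U, hΦ, z, hz, rfl⟩ := 𝓜.cover x hv.1
  obtain ⟨a, rfl⟩ := CMfd.exists_of_mem_TM hΦ hz hv
  have h1 := gspray_tparam hh hΦ hz (c • a)
  have h2 := gspray_tparam hh hΦ hz a
  unfold tparam at h1 h2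
  simp only [map_smul] at h1
  rw [h1, h2, accel_smul]

/-- rescaling of an integral curve of the spray. -/
theorem isSol_gspray_smul (hh : IsMetric 𝓜 h) (c : ℝ) {σ : ℝ → V × V}
    (hσ : IsSol (gspray 𝓜 h) 𝓜.TM (c * t) (x, v) σ) :
    IsSol (gspray 𝓜 h) 𝓜.TM t (x, c • v) (fun r => ((σ (c * r)).1, c • (σ (c * r)).2)) := by
  have h1 := hσ.smul c
  refine ⟨by simp only [mul_zero, hσ.1], fun r hr => ⟨CMfd.smul_mem_TM (h1.2 r hr).1 c, ?_⟩⟩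
  have h2 := (h1.2 r hr).2
  have h3 : HasDerivWithinAt (fun r => (σ (c * r)).1) (c • (σ (c * r)).2) (Set.uIcc 0 t) r := h2.fst
  have h4 : HasDerivWithinAt (fun r => (σ (c * r)).2)
      (c • (gspray 𝓜 h (σ (c * r))).2) (Set.uIcc 0 t) r := h2.snd
  have h5 := h3.prodMk (h4.const_smul c)
  refine h5.congr_deriv ?_
  exact (gspray_smul hh (x := (σ (c * r)).1) (v := (σ (c * r)).2) (h1.2 r hr).1 c).symm

/-- **homogeneity.** -/
theorem mem_gdom_smul (hM : IsClosed 𝓜.carrier) (hh : IsMetric 𝓜 h) (hv : (x, v) ∈ 𝓜.TM)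
    (c : ℝ) : (t, (x, c • v)) ∈ gdom 𝓜 h ↔ (c * t, (x, v)) ∈ gdom 𝓜 h := by
  constructor
  · intro hd
    rcases eq_or_ne c 0 with rfl | hc
    · rw [zero_mul]
      exact zero_mem_gdom.2 hv
    · obtain ⟨σ, hσ⟩ := hd
      have hσ' : IsSol (gspray 𝓜 h) 𝓜.TM (c⁻¹ * (c * t)) (x, c • v) σ := by
        rwa [inv_mul_cancel_left₀ hc]
      have := isSol_gspray_smul hh c⁻¹ hσ'
      rw [inv_smul_smul₀ hc] at this
      exact ⟨_, this⟩
  · rintro ⟨σ, hσ⟩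
    exact ⟨_, isSol_gspray_smul hh c hσ⟩

theorem geo_smul (hM : IsClosed 𝓜.carrier) (hh : IsMetric 𝓜 h) (hv : (x, v) ∈ 𝓜.TM) (c : ℝ)
    (hd : (c * t, (x, v)) ∈ gdom 𝓜 h) :
    geo 𝓜 h x (c • v) t = geo 𝓜 h x v (c * t) ∧
      geoV 𝓜 h x (c • v) t = c • geoV 𝓜 h x v (c * t) := by
  obtain ⟨σ, hσ, he⟩ := dom_spec hd
  have h1 := ((tanField_gspray hM hh).fl_eq (isSol_gspray_smul hh c hσ) t Set.right_mem_uIcc).2
  unfold geo geoV
  rw [h1, he]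
  exact ⟨rfl, rfl⟩

theorem hexp_smul (hM : IsClosed 𝓜.carrier) (hh : IsMetric 𝓜 h) (hv : (x, v) ∈ 𝓜.TM)
    (hd : (t, (x, v)) ∈ gdom 𝓜 h) : hexp 𝓜 h x (t • v) = geo 𝓜 h x v t := by
  have h1 := (geo_smul (t := 1) hM hh hv t (by rwa [mul_one])).1
  rwa [mul_one] at h1

/-- constant geodesics. -/
theorem geo_zero_vec (hM : IsClosed 𝓜.carrier) (hh : IsMetric 𝓜 h) (hx : x ∈ 𝓜.carrier) (t : ℝ) :
    (t, (x, (0 : V))) ∈ gdom 𝓜 h ∧ geo 𝓜 h x 0 t = x ∧ geoV 𝓜 h x 0 t = 0 := by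
  have h0 : (x, (0 : V)) ∈ 𝓜.TM := CMfd.zero_mem_TM hx
  have hs : gspray 𝓜 h (x, (0 : V)) = 0 := by
    have := gspray_smul hh h0 0
    rw [← Prod.mk_zero_zero]
    simpa using this
  have hsol : IsSol (gspray 𝓜 h) 𝓜.TM t (x, (0 : V)) (fun _ => (x, (0 : V))) :=
    ⟨rfl, fun r _ => ⟨h0, by rw [hs]; exact hasDerivWithinAt_const _ _ _⟩⟩
  have h1 := (tanField_gspray hM hh).fl_eq hsol t Set.right_mem_uIcc
  exact ⟨h1.1, congrArg Prod.fst h1.2, congrArg Prod.snd h1.2⟩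

/-- chart relation. -/
theorem geo_tparam (hM : IsClosed 𝓜.carrier) (hh : IsMetric 𝓜 h) (hΦ : 𝓜.IsHol Φ U)
    (hd : (t, (z, a)) ∈ dom (cspray h Φ) (U ×ˢ (Set.univ : Set (CE ι)))) :
    (t, tparam Φ (z, a)) ∈ gdom 𝓜 h ∧
      fl (gspray 𝓜 h) 𝓜.TM t (tparam Φ (z, a)) =
        tparam Φ (fl (cspray h Φ) (U ×ˢ (Set.univ : Set (CE ι))) t (z, a)) :=
  (tanField_gspray hM hh).fl_map (θ := tparam Φ) (θ' := fderiv ℝ (tparam Φ))
    (fun q hq => (fderiv_tparam hΦ hq.1 q.2).1)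
    (fun q hq => CMfd.tparam_mem_TM hΦ hq.1 q.2)
    (fun _ hq => fderiv_tparam_cspray hh hΦ hq) hd

/-- uniform existence: for `(x, v)` in a compact subset of `T𝓜`. -/
theorem exists_pos_forall_mem_gdom (hM : IsClosed 𝓜.carrier) (hh : IsMetric 𝓜 h)
    {K : Set (V × V)} (hK : IsCompact K) (hKM : K ⊆ 𝓜.TM) :
    ∃ ε > 0, ∀ p ∈ K, ∀ r : ℝ, |r| ≤ ε → (r, p) ∈ gdom 𝓜 h :=
  (tanField_gspray hM hh).exists_pos_forall_mem_dom hK hKM

/-- continuation: a geodesic whose point and velocity stay in a compact set exists up to `T`. -/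
theorem mem_gdom_of_apriori (hM : IsClosed 𝓜.carrier) (hh : IsMetric 𝓜 h) (hv : (x, v) ∈ 𝓜.TM)
    {T : ℝ} {K : Set (V × V)} (hK : IsCompact K)
    (hap : ∀ r ∈ Set.uIcc 0 T, (r, (x, v)) ∈ gdom 𝓜 h →
      (geo 𝓜 h x v r, geoV 𝓜 h x v r) ∈ K) : (T, (x, v)) ∈ gdom 𝓜 h :=
  (tanField_gspray hM hh).mem_dom_of_apriori hv hK hap

theorem contDiffOn_tparam (hΦ : 𝓜.IsHol Φ U) :
    ContDiffOn ℝ ∞ (tparam Φ) (U ×ˢ (Set.univ : Set (CE ι))) := by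
  have hp := 𝓜.isParam hΦ
  have hfst : Set.MapsTo (Prod.fst : CE ι × CE ι → CE ι) (U ×ˢ (Set.univ : Set (CE ι))) U :=
    fun q hq => hq.1
  exact (hp.smooth.comp contDiffOn_fst hfst).prodMk
    (((hp.smooth.fderiv_of_isOpen hp.isOpen (by simp)).comp contDiffOn_fst hfst).clm_apply
      contDiffOn_snd)

/-- smooth families of initial data give smooth families of geodesics (ambient form). -/
theorem contDiffOn_geo_comp (hM : IsClosed 𝓜.carrier) (hh : IsMetric 𝓜 h)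
    {E : Type} [NormedAddCommGroup E] [NormedSpace ℝ E] {σ : E → V × V} {S : Set E}
    (hσ : ContDiffOn ℝ ∞ σ S) (hσM : ∀ e ∈ S, σ e ∈ 𝓜.TM) :
    ContDiffOn ℝ ∞ (fun q : ℝ × E => geo 𝓜 h (σ q.2).1 (σ q.2).2 q.1)
      {q | q.2 ∈ S ∧ (q.1, σ q.2) ∈ gdom 𝓜 h} := by
  obtain ⟨D, G, hD, hG, hdom, hfl⟩ := exists_contDiffOn_geo hM hh
  have h1 : ContDiffOn ℝ ∞ (fun q : ℝ × E => (q.1, σ q.2))
      {q | q.2 ∈ S ∧ (q.1, σ q.2) ∈ gdom 𝓜 h} :=
    contDiffOn_fst.prodMk (hσ.comp contDiffOn_snd fun q hq => hq.1)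
  have h2 : ContDiffOn ℝ ∞ (fun q : ℝ × E => (G (q.1, σ q.2)).1)
      {q | q.2 ∈ S ∧ (q.1, σ q.2) ∈ gdom 𝓜 h} :=
    (hG.comp h1 (fun q hq => by
      have := hq.2
      rw [hdom] at this
      exact this.1)).fst
  exact h2.congr fun q hq => congrArg Prod.fst (hfl (q.1, σ q.2) hq.2)

/-- the geodesic flow read in parametrisations is smooth: domain. -/
theorem isOpen_geoDom (hM : IsClosed 𝓜.carrier) (hh : IsMetric 𝓜 h) (hΦ : 𝓜.IsHol Φ U)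
    (hΨ : 𝓜.IsHol Ψ W) :
    IsOpen {q : ℝ × CE ι × CE ι | q.2.1 ∈ U ∧ (q.1, tparam Φ q.2) ∈ gdom 𝓜 h ∧
      geo 𝓜 h (Φ q.2.1) (fderiv ℝ Φ q.2.1 q.2.2) q.1 ∈ Ψ '' W} := by
  obtain ⟨D, G, hD, hG, hdom, hfl⟩ := exists_contDiffOn_geo hM hh
  obtain ⟨O', hO', hO'eq⟩ := (𝓜.isParam hΨ).image
  have hΩ : IsOpen ((Set.univ : Set ℝ) ×ˢ (U ×ˢ (Set.univ : Set (CE ι)))) :=
    isOpen_univ.prod ((CMfd.isOpen_dom hΦ).prod isOpen_univ)
  have hF : ContinuousOn (fun q : ℝ × CE ι × CE ι => (q.1, tparam Φ q.2))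
      ((Set.univ : Set ℝ) ×ˢ (U ×ˢ (Set.univ : Set (CE ι)))) :=
    continuousOn_fst.prodMk ((contDiffOn_tparam hΦ).continuousOn.comp continuousOn_snd
      fun q hq => hq.2)
  have hA₁ := hF.isOpen_inter_preimage hΩ hD
  have hK : ContinuousOn (fun q : ℝ × CE ι × CE ι => (G (q.1, tparam Φ q.2)).1)
      ((Set.univ : Set ℝ) ×ˢ (U ×ˢ (Set.univ : Set (CE ι))) ∩
        (fun q : ℝ × CE ι × CE ι => (q.1, tparam Φ q.2)) ⁻¹' D) :=
    (hG.continuousOn.comp (hF.mono Set.inter_subset_left) fun q hq => hq.2).fst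
  have hA := hK.isOpen_inter_preimage hA₁ hO'
  convert hA using 1
  ext q
  constructor
  · rintro ⟨hqU, hqd, hqW⟩
    have hqD : (q.1, tparam Φ q.2) ∈ D := by
      rw [hdom] at hqd
      exact hqd.1
    refine ⟨⟨⟨trivial, hqU, trivial⟩, hqD⟩, ?_⟩
    have h1 : geo 𝓜 h (Φ q.2.1) (fderiv ℝ Φ q.2.1 q.2.2) q.1 = (G (q.1, tparam Φ q.2)).1 :=
      congrArg Prod.fst (hfl (q.1, tparam Φ q.2) hqd)
    rw [hO'eq] at hqW
    show (G (q.1, tparam Φ q.2)).1 ∈ O'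
    rw [← h1]
    exact hqW.2
  · rintro ⟨⟨⟨-, hqU, -⟩, hqD⟩, hqO⟩
    have hqd : (q.1, tparam Φ q.2) ∈ gdom 𝓜 h := by
      rw [hdom]
      exact ⟨hqD, trivial, CMfd.tparam_mem_TM hΦ hqU q.2.2⟩
    have h1 : geo 𝓜 h (Φ q.2.1) (fderiv ℝ Φ q.2.1 q.2.2) q.1 = (G (q.1, tparam Φ q.2)).1 :=
      congrArg Prod.fst (hfl (q.1, tparam Φ q.2) hqd)
    refine ⟨hqU, hqd, ?_⟩
    rw [hO'eq]
    refine ⟨geo_mem hqd, ?_⟩
    rw [h1]
    exact hqO

theorem contDiffOn_geoCo (hM : IsClosed 𝓜.carrier) (hh : IsMetric 𝓜 h) (hΦ : 𝓜.IsHol Φ U)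
    (hΨ : 𝓜.IsHol Ψ W) :
    ContDiffOn ℝ ∞
      (fun q : ℝ × CE ι × CE ι =>
        Function.invFunOn Ψ W (geo 𝓜 h (Φ q.2.1) (fderiv ℝ Φ q.2.1 q.2.2) q.1))
      {q : ℝ × CE ι × CE ι | q.2.1 ∈ U ∧ (q.1, tparam Φ q.2) ∈ gdom 𝓜 h ∧
        geo 𝓜 h (Φ q.2.1) (fderiv ℝ Φ q.2.1 q.2.2) q.1 ∈ Ψ '' W} := by
  have hopen := isOpen_geoDom hM hh hΦ hΨ
  intro q₀ hq₀
  have hnhds := hopen.mem_nhds hq₀
  have h1 := contDiffOn_geo_comp hM hh (contDiffOn_tparam hΦ)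
    (fun e he => CMfd.tparam_mem_TM hΦ he.1 e.2)
  have h2 : ContDiffAt ℝ ∞
      (fun q : ℝ × CE ι × CE ι => geo 𝓜 h (Φ q.2.1) (fderiv ℝ Φ q.2.1 q.2.2) q.1) q₀ :=
    (h1 q₀ ⟨⟨hq₀.1, trivial⟩, hq₀.2.1⟩).contDiffAt
      (Filter.mem_of_superset hnhds fun q hq => ⟨⟨hq.1, trivial⟩, hq.2.1⟩)
  have h3 := (𝓜.isParam hΨ).contDiffAt_invFunOn_comp le_rfl h2
    (Filter.mem_of_superset hnhds fun q hq => geo_mem hq.2.1) hq₀.2.2
  exact h3.contDiffWithinAt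

end flow

/-! ### 3. integral curves of the spray = geodesics -/

section geodesic

variable [FiniteDimensional ℝ V]
variable {𝓜 : CMfd V ι} {h : HFam V ι} {x v : V} {t t₀ : ℝ} {γ : ℝ → V} {I : Set ℝ}

/-- the derivative of the 1-jet of `Φ ∘ c`. -/
theorem hasDerivAt_jet_comp {Φ : CE ι → V} {U : Set (CE ι)} (hΦ : 𝓜.IsHol Φ U) {c : ℝ → CE ι}
    (hct : c t ∈ U) (hc : ContDiffAt ℝ 2 c t) :
    HasDerivAt (fun r => ((Φ ∘ c) r, deriv (Φ ∘ c) r))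
      (fderiv ℝ Φ (c t) (deriv c t),
        fderiv ℝ (fderiv ℝ Φ) (c t) (deriv c t) (deriv c t)
          + fderiv ℝ Φ (c t) (deriv (deriv c) t)) t := by
  have hp := 𝓜.isParam hΦ
  have h2 : (2 : WithTop ℕ∞) ≠ ∞ := by
    intro h
    have : ((2 : ℕ∞) : WithTop ℕ∞) = ((⊤ : ℕ∞) : WithTop ℕ∞) := h
    exact absurd (WithTop.coe_injective this) (by decide)
  have e : (fun r => ((Φ ∘ c) r, deriv (Φ ∘ c) r)) =ᶠ[𝓝 t] fun r => tparam Φ (c r, deriv c r) := by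
    filter_upwards [hc.continuousAt.eventually (hp.isOpen.mem_nhds hct), hc.eventually h2]
      with r hr1 hr2
    have h3 : HasDerivAt (Φ ∘ c) (fderiv ℝ Φ (c r) (deriv c r)) r :=
      (hp.differentiableAt hr1).hasFDerivAt.comp_hasDerivAt r
        (hr2.differentiableAt (by norm_num)).hasDerivAt
    rw [h3.deriv]
    rfl
  have hd1 : HasDerivAt c (deriv c t) t := (hc.differentiableAt (by norm_num)).hasDerivAt
  have hd2 : HasDerivAt (deriv c) (deriv (deriv c) t) t := by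
    have h4 : ContDiffAt ℝ 1 (deriv c) t := by
      have h5 := hc.fderiv_right (m := 1) (by norm_num)
      have h6 : deriv c = fun r => fderiv ℝ c r 1 := by
        funext r
        exact (fderiv_apply_one_eq_deriv).symm
      rw [h6]
      exact h5.clm_apply contDiffAt_const
    exact (h4.differentiableAt (by norm_num)).hasDerivAt
  have h7 := (fderiv_tparam hΦ hct (deriv c t)).1.comp_hasDerivAt t (hd1.prodMk hd2)
  rw [(fderiv_tparam hΦ hct (deriv c t)).2] at h7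
  exact h7.congr_of_eventuallyEq e

theorem jet_eq_gspray_iff (hh : IsMetric 𝓜 h) {Φ : CE ι → V} {U : Set (CE ι)} (hΦ : 𝓜.IsHol Φ U)
    {z : CE ι} (hz : z ∈ U) (a e : CE ι) :
    (fderiv ℝ Φ z a, fderiv ℝ (fderiv ℝ Φ) z a a + fderiv ℝ Φ z e)
      = gspray 𝓜 h (Φ z, fderiv ℝ Φ z a) ↔ e + chris (h Φ) z a a = 0 := by
  have h1 := gspray_tparam hh hΦ hz a
  unfold tparam at h1
  rw [h1]
  unfold accel
  constructor
  · intro H
    have h2 := congrArg Prod.snd H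
    simp only [sub_eq_add_neg, add_right_inj] at h2
    apply (𝓜.isParam hΦ).immersion z hz
    rw [map_add, h2, map_zero, neg_add_cancel]
  · intro H
    have h2 : e = - chris (h Φ) z a a := eq_neg_of_add_eq_zero_left H
    rw [h2, map_neg, sub_eq_add_neg]

/-- geodesic equation in a chart = integral curve of the spray. -/
theorem hasDerivAt_jet_iff (hh : IsMetric 𝓜 h) {Φ : CE ι → V} {U : Set (CE ι)} (hΦ : 𝓜.IsHol Φ U)
    {c : ℝ → CE ι} (hct : c t ∈ U) (hc : ContDiffAt ℝ 2 c t) (hγc : γ =ᶠ[𝓝 t] Φ ∘ c) :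
    HasDerivAt (fun r => (γ r, deriv γ r)) (gspray 𝓜 h (γ t, deriv γ t)) t ↔
      (kgeo h Φ U).covD c (deriv c) t = 0 := by
  have hj := hasDerivAt_jet_comp hΦ hct hc
  have e : (fun r => (γ r, deriv γ r)) =ᶠ[𝓝 t] fun r => ((Φ ∘ c) r, deriv (Φ ∘ c) r) := by
    filter_upwards [hγc, hγc.deriv] with r h1 h2
    rw [h1, h2]
  have hj' := hj.congr_of_eventuallyEq e
  have h0 : (γ t, deriv γ t) = (Φ (c t), fderiv ℝ Φ (c t) (deriv c t)) := by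
    have he : (γ t, deriv γ t) = ((Φ ∘ c) t, deriv (Φ ∘ c) t) := e.self_of_nhds
    rw [he]
    have h3 : HasDerivAt (Φ ∘ c) (fderiv ℝ Φ (c t) (deriv c t)) t :=
      ((𝓜.isParam hΦ).differentiableAt hct).hasFDerivAt.comp_hasDerivAt t
        (hc.differentiableAt (by norm_num)).hasDerivAt
    rw [h3.deriv]
    rfl
  rw [h0]
  have hiff := jet_eq_gspray_iff hh hΦ hct (deriv c t) (deriv (deriv c) t)
  constructor
  · intro H
    exact hiff.1 (hj'.unique H)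
  · intro H
    rw [← hiff.2 H]
    exact hj'

theorem differentiableAt_of_jet {w : V × V}
    (H : HasDerivAt (fun r => (γ r, deriv γ r)) w t) : DifferentiableAt ℝ γ t := by
  have h1 : HasDerivAt γ w.1 t := H.fst
  exact h1.differentiableAt

/-- characterisation of geodesics on an open set of times. -/
theorem isGeodesic_iff (hM : IsClosed 𝓜.carrier) (hh : IsMetric 𝓜 h) (hI : IsOpen I) :
    IsGeodesic 𝓜 h γ I ↔
      ∀ t ∈ I, γ t ∈ 𝓜.carrier ∧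
        HasDerivAt (fun r => (γ r, deriv γ r)) (gspray 𝓜 h (γ t, deriv γ t)) t := by
  have h2le : (2 : WithTop ℕ∞) ≤ ∞ := WithTop.coe_le_coe.2 le_top
  constructor
  · intro hγ t ht
    refine ⟨hγ.2.1 t ht, ?_⟩
    obtain ⟨Φ, U, hΦ, hxU⟩ := 𝓜.cover _ (hγ.2.1 t ht)
    have hp := 𝓜.isParam hΦ
    obtain ⟨O, hO, hOeq⟩ := hp.image
    have hI'o : IsOpen (I ∩ γ ⁻¹' O) := hγ.1.continuousOn.isOpen_inter_preimage hI hO
    have hmem : ∀ r ∈ I ∩ γ ⁻¹' O, γ r ∈ Φ '' U := fun r hr => by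
      rw [hOeq]
      exact ⟨hγ.2.1 r hr.1, hr.2⟩
    have htI' : t ∈ I ∩ γ ⁻¹' O := ⟨ht, by
      have := hxU
      rw [hOeq] at this
      exact this.2⟩
    have hgeod := hγ.2.2 Φ U hΦ (Function.invFunOn Φ U ∘ γ) (I ∩ γ ⁻¹' O) Set.inter_subset_left
      hI'o (fun r hr => ⟨hp.invFunOn_mem (hmem r hr), hp.rightInv (hmem r hr)⟩)
    refine (hasDerivAt_jet_iff hh hΦ (hgeod.2.1 t htI')
      ((hgeod.1.contDiffAt (hI'o.mem_nhds htI')).of_le h2le) ?_).2 (hgeod.2.2 t htI')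
    filter_upwards [hI'o.mem_nhds htI'] with r hr
    exact (hp.rightInv (hmem r hr)).symm
  · intro H
    have hX := tanField_gspray hM hh
    have hTM : ∀ t ∈ I, (γ t, deriv γ t) ∈ 𝓜.TM := fun t ht =>
      CMfd.deriv_mem_TM (differentiableAt_of_jet (H t ht).2)
        (Filter.mem_of_superset (hI.mem_nhds ht) fun r hr => (H r hr).1)
    have hsm : ∀ t ∈ I, ContDiffAt ℝ ∞ γ t := by
      intro t ht
      obtain ⟨δ, hδ, hball⟩ := Metric.isOpen_iff.1 hI t ht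
      have hJ : Set.Ioo (t - δ) (t + δ) ⊆ I := by
        rw [← Real.ball_eq_Ioo]
        exact hball
      have htJ : t ∈ Set.Ioo (t - δ) (t + δ) := ⟨by linarith, by linarith⟩
      have h1 : ∀ r ∈ Set.Ioo (t - δ) (t + δ),
          fl (gspray 𝓜 h) 𝓜.TM (r - t) (γ t, deriv γ t) = (γ r, deriv γ r) := fun r hr =>
        (hX.eq_fl_of_hasDerivWithinAt Set.ordConnected_Ioo (c := fun r => (γ r, deriv γ r))
          (fun q hq => ⟨hTM q (hJ hq), (H q (hJ hq)).2.hasDerivWithinAt⟩) htJ hr).2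
      have h2 : ContDiffAt ℝ ∞ (fun r => fl (gspray 𝓜 h) 𝓜.TM r (γ t, deriv γ t)) (t - t) := by
        rw [sub_self]
        exact hX.contDiffAt_fl (zero_mem_dom.2 (hTM t ht))
      have h3 : ContDiffAt ℝ ∞ (fun r => fl (gspray 𝓜 h) 𝓜.TM (r - t) (γ t, deriv γ t)) t :=
        ContDiffAt.comp t (g := fun r => fl (gspray 𝓜 h) 𝓜.TM r (γ t, deriv γ t))
          (f := fun r => r - t) h2 (contDiffAt_id.sub contDiffAt_const)
      have h4 : γ =ᶠ[𝓝 t] fun r => (fl (gspray 𝓜 h) 𝓜.TM (r - t) (γ t, deriv γ t)).1 := by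
        filter_upwards [Ioo_mem_nhds htJ.1 htJ.2] with r hr
        rw [h1 r hr]
      exact h3.fst.congr_of_eventuallyEq h4
    refine ⟨fun t ht => (hsm t ht).contDiffWithinAt, fun t ht => (H t ht).1, ?_⟩
    intro Φ U hΦ c I' hI'I hI'o hc
    have hp := 𝓜.isParam hΦ
    have hcs : ∀ t ∈ I', ContDiffAt ℝ ∞ c t := by
      intro t ht
      have h1 := hp.contDiffAt_invFunOn_comp le_rfl (hsm t (hI'I ht))
        (Filter.mem_of_superset (hI.mem_nhds (hI'I ht)) fun r hr => (H r hr).1)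
        ⟨c t, (hc t ht).1, (hc t ht).2⟩
      refine h1.congr_of_eventuallyEq ?_
      filter_upwards [hI'o.mem_nhds ht] with r hr
      show c r = Function.invFunOn Φ U (γ r)
      rw [← (hc r hr).2, hp.leftInv (hc r hr).1]
    refine ⟨fun t ht => (hcs t ht).contDiffWithinAt, fun t ht => (hc t ht).1, fun t ht => ?_⟩
    refine (hasDerivAt_jet_iff hh hΦ (hc t ht).1 ((hcs t ht).of_le h2le) ?_).1 (H t (hI'I ht)).2
    filter_upwards [hI'o.mem_nhds ht] with r hr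
    exact (hc r hr).2.symm

theorem isOpen_geoTimes (hM : IsClosed 𝓜.carrier) (hh : IsMetric 𝓜 h) (x v : V) :
    IsOpen {t | (t, (x, v)) ∈ gdom 𝓜 h} :=
  (tanField_gspray hM hh).isOpen_times (x, v)

/-- the flow lines are geodesics. -/
theorem isGeodesic_geo (hM : IsClosed 𝓜.carrier) (hh : IsMetric 𝓜 h) (x v : V) :
    IsGeodesic 𝓜 h (geo 𝓜 h x v) {t | (t, (x, v)) ∈ gdom 𝓜 h} := by
  have hopen := isOpen_geoTimes hM hh x v
  rw [isGeodesic_iff hM hh hopen]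
  intro t ht
  refine ⟨geo_mem ht, ?_⟩
  have e : (fun r => (geo 𝓜 h x v r, deriv (geo 𝓜 h x v) r)) =ᶠ[𝓝 t]
      fun r => fl (gspray 𝓜 h) 𝓜.TM r (x, v) := by
    filter_upwards [hopen.mem_nhds ht] with r hr
    rw [deriv_geo hM hh hr]
    rfl
  have h1 := (tanField_gspray hM hh).hasDerivAt_fl ht
  have he : (geo 𝓜 h x v t, deriv (geo 𝓜 h x v) t) = fl (gspray 𝓜 h) 𝓜.TM t (x, v) :=
    e.self_of_nhds
  rw [he]
  exact h1.congr_of_eventuallyEq e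

/-- **uniqueness of geodesics.** -/
theorem IsGeodesic.eq_geo (hM : IsClosed 𝓜.carrier) (hh : IsMetric 𝓜 h) (hI : IsOpen I)
    (hIc : I.OrdConnected) (hγ : IsGeodesic 𝓜 h γ I) (ht₀ : t₀ ∈ I) (ht : t ∈ I) :
    (t - t₀, (γ t₀, deriv γ t₀)) ∈ gdom 𝓜 h ∧
      geo 𝓜 h (γ t₀) (deriv γ t₀) (t - t₀) = γ t ∧
      geoV 𝓜 h (γ t₀) (deriv γ t₀) (t - t₀) = deriv γ t := by
  have H := (isGeodesic_iff hM hh hI).1 hγ
  have hTM : ∀ t ∈ I, (γ t, deriv γ t) ∈ 𝓜.TM := fun t ht =>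
    CMfd.deriv_mem_TM (differentiableAt_of_jet (H t ht).2)
      (Filter.mem_of_superset (hI.mem_nhds ht) fun r hr => (H r hr).1)
  have h1 := (tanField_gspray hM hh).eq_fl_of_hasDerivWithinAt hIc
    (c := fun r => (γ r, deriv γ r))
    (fun q hq => ⟨hTM q hq, (H q hq).2.hasDerivWithinAt⟩) ht₀ ht
  exact ⟨h1.1, congrArg Prod.fst h1.2, congrArg Prod.snd h1.2⟩

/-- geodesics in one chart. -/
theorem isGeodesic_comp_param (hM : IsClosed 𝓜.carrier) (hh : IsMetric 𝓜 h) {Φ : CE ι → V}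
    {U : Set (CE ι)} (hΦ : 𝓜.IsHol Φ U) (hI : IsOpen I) {c : ℝ → CE ι} :
    (kgeo h Φ U).IsGeod c I ↔ (∀ t ∈ I, c t ∈ U) ∧ IsGeodesic 𝓜 h (Φ ∘ c) I := by
  have h2le : (2 : WithTop ℕ∞) ≤ ∞ := WithTop.coe_le_coe.2 le_top
  constructor
  · intro hc
    refine ⟨hc.2.1, (isGeodesic_iff hM hh hI).2 fun t ht => ⟨CMfd.mem_carrier hΦ (hc.2.1 t ht), ?_⟩⟩
    exact (hasDerivAt_jet_iff hh hΦ (hc.2.1 t ht) ((hc.1.contDiffAt (hI.mem_nhds ht)).of_le h2le)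
      (Filter.EventuallyEq.refl _ _)).2 (hc.2.2 t ht)
  · rintro ⟨hU, hγ⟩
    exact hγ.2.2 Φ U hΦ c I subset_rfl hI fun t ht => ⟨hU t ht, rfl⟩

end geodesic

end Claimed.Agent.R316
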