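import Claimed.Agent.R316.Pack014_2

/-!
# `BP-G3` part 1: flows of smooth fields tangent to a CLOSED subset of a finite dimensional space

Framework independent (no manifolds).  There is NO tubular retraction: a field `X` on a closed set
`M ⊆ V` which has local smooth extensions (`LocExt`) has a global smooth extension `X̃ : V → V`
(partition of unity: Mathlib `exists_contMDiffMap_forall_mem_convex_of_local` with the convex sets
`t y = {X y}` for `y ∈ M`, `t y = univ` otherwise).  If moreover `X` has local integral curves inside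
`M` (`LocInt`), then the flow of `X̃` preserves `M` (open-closed argument + uniqueness), so the maximal
flow `fl X M` of `X` IN `M` (definitions of `ODE/Defs.lean` with the non open set `Ω = M`) is the
restriction of the flow of `X̃` on `V`, and the whole API of `BP-G2` transfers.

It is applied to: `M = 𝓜.carrier` (`Field.lean`), `M = ℂ × 𝓜.carrier` (`CFlow.lean`),
`M = T𝓜 ⊆ V × V` (`Spray.lean`).

Leaves: `G3-INV-A` (`exists_contDiff_extension`, `fl_mem_of_locInt`, `TanField.exists_ambient`),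
`G3-INV-B` (everything after `exists_ambient`: each statement is a transfer of the statement of the
same name of `ODE/FlowBasic.lean`, `ODE/Flow.lean` for `X̃` on `Ω = univ`).
-/

set_option autoImplicit false
set_option linter.unusedSectionVars false
set_option linter.unusedVariables false
open scoped ContDiff Topology Manifold

namespace Claimed.Agent.R316.Tub

open Claimed.Agent.R316.ODE

variable {V : Type*} [NormedAddCommGroup V] [NormedSpace ℝ V]
variable {F : Type*} [NormedAddCommGroup F] [NormedSpace ℝ F]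

/-- `u` (only its values on `M` matter) has local smooth extensions at the points of `M`. -/
def LocExt (M : Set V) (u : V → F) : Prop :=
  ∀ x ∈ M, ∃ O ∈ 𝓝 x, ∃ g : V → F, ContDiffOn ℝ ∞ g O ∧ ∀ y ∈ O ∩ M, g y = u y

/-- `X` has local integral curves inside `M`. -/
def LocInt (M : Set V) (X : V → V) : Prop :=
  ∀ x ∈ M, ∃ ε > 0, ∃ c : ℝ → V, c 0 = x ∧
    ∀ t ∈ Set.Ioo (-ε) ε, c t ∈ M ∧ HasDerivAt c (X (c t)) t

/-- `X` is a smooth field tangent to the closed set `M`. -/
structure TanField (M : Set V) (X : V → V) : Prop where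
  closed : IsClosed M
  ext : LocExt M X
  int : LocInt M X

theorem LocExt.congr {M : Set V} {u u' : V → F} (h : LocExt M u) (he : Set.EqOn u' u M) :
    LocExt M u' := by
  intro x hx
  obtain ⟨O, hO, g, hg, hgu⟩ := h x hx
  exact ⟨O, hO, g, hg, fun y hy => (hgu y hy).trans (he hy.2).symm⟩

theorem LocInt.congr {M : Set V} {X X' : V → V} (h : LocInt M X) (he : Set.EqOn X' X M) :
    LocInt M X' := by
  intro x hx
  obtain ⟨ε, hε, c, h0, hc⟩ := h x hx
  exact ⟨ε, hε, c, h0, fun t ht => ⟨(hc t ht).1, by rw [he (hc t ht).1]; exact (hc t ht).2⟩⟩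

theorem TanField.congr {M : Set V} {X X' : V → V} (h : TanField M X) (he : Set.EqOn X' X M) :
    TanField M X' := ⟨h.closed, h.ext.congr he, h.int.congr he⟩

/-- the flow in `M` only depends on the values of the field on `M`. -/
theorem isSol_congr {M : Set V} {X X' : V → V} (he : Set.EqOn X' X M) {t : ℝ} {x : V}
    {c : ℝ → V} : IsSol X' M t x c ↔ IsSol X M t x c := by
  unfold IsSol
  refine and_congr_right fun _ => forall₂_congr fun s _ => and_congr_right fun hs => ?_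
  rw [he hs]

theorem dom_congr {M : Set V} {X X' : V → V} (he : Set.EqOn X' X M) : dom X' M = dom X M := by
  ext ⟨t, x⟩
  exact exists_congr fun c => isSol_congr he

theorem fl_congr {M : Set V} {X X' : V → V} (he : Set.EqOn X' X M) : fl X' M = fl X M := by
  funext t x
  have hP : IsSol X' M t x = IsSol X M t x := funext fun c => propext (isSol_congr he)
  unfold fl
  rw [hP]

theorem LocExt.smul {M : Set V} {u : V → F} (h : LocExt M u) (a : ℝ) :
    LocExt M (fun y => a • u y) := by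
  intro x hx
  obtain ⟨O, hO, g, hg, hgu⟩ := h x hx
  exact ⟨O, hO, fun y => a • g y, hg.const_smul a, fun y hy => by
    show a • g y = a • u y
    rw [hgu y hy]⟩

theorem LocInt.smul {M : Set V} {X : V → V} (h : LocInt M X) (a : ℝ) :
    LocInt M (fun y => a • X y) := by
  intro x hx
  obtain ⟨ε, hε, c, h0, hc⟩ := h x hx
  rcases eq_or_ne a 0 with rfl | ha
  · refine ⟨1, one_pos, fun _ => x, rfl, fun t _ => ⟨hx, ?_⟩⟩
    simpa using hasDerivAt_const t x
  · have ha' : 0 < |a| := abs_pos.2 ha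
    refine ⟨ε / |a|, by positivity, fun r => c (a * r), by simpa using h0, fun t ht => ?_⟩
    have hat : a * t ∈ Set.Ioo (-ε) ε := by
      have h1 : |t| < ε / |a| := abs_lt.2 ht
      have h2 : |a * t| < ε := by
        rw [abs_mul, mul_comm]
        exact (lt_div_iff₀ ha').1 h1
      exact abs_lt.1 h2
    refine ⟨(hc _ hat).1, ?_⟩
    have h1 : HasDerivAt (fun r : ℝ => a * r) a t := by
      simpa using (hasDerivAt_id t).const_mul a
    exact HasDerivAt.scomp t (hc _ hat).2 h1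

/-- a solution in `M` is a solution of every field on `V` which agrees with `X` on `M`. -/
theorem isSol_univ_of_isSol {M : Set V} {X Y : V → V} (he : Set.EqOn Y X M) {t : ℝ} {x : V}
    {c : ℝ → V} (h : IsSol X M t x c) : IsSol Y Set.univ t x c :=
  ⟨h.1, fun r hr => ⟨Set.mem_univ _, by rw [he (h.2 r hr).1]; exact (h.2 r hr).2⟩⟩

section fd

variable [FiniteDimensional ℝ V]

/-- variant with values in convex sets: if the local extensions can be chosen in the convex sets
`t y` (for ALL `y` near `x`), so can the global one. -/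
theorem exists_contDiff_extension_convex {M : Set V} {u : V → F} {t : V → Set F}
    (ht : ∀ y, Convex ℝ (t y)) (hM : IsClosed M)
    (hu : ∀ x, ∃ O ∈ 𝓝 x, ∃ g : V → F, ContDiffOn ℝ ∞ g O ∧ (∀ y ∈ O ∩ M, g y = u y) ∧
      ∀ y ∈ O, g y ∈ t y) :
    ∃ g : V → F, ContDiff ℝ ∞ g ∧ Set.EqOn g u M ∧ ∀ y, g y ∈ t y := by
  classical
  set t' : V → Set F := fun y => (if y ∈ M then {u y} else Set.univ) ∩ t y with ht'
  have hconv : ∀ y, Convex ℝ (t' y) := by
    intro y
    refine Convex.inter ?_ (ht y)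
    by_cases hy : y ∈ M
    · simp only [hy, if_true]; exact convex_singleton _
    · simp only [hy, if_false]; exact convex_univ
  obtain ⟨g, hg⟩ := exists_contMDiffMap_forall_mem_convex_of_local (n := ⊤) 𝓘(ℝ, V) hconv
    (fun x => by
      obtain ⟨O, hO, g, hg, hgu, hgt⟩ := hu x
      refine ⟨O, hO, g, contMDiffOn_iff_contDiffOn.2 hg, fun y hy => ⟨?_, hgt y hy⟩⟩
      by_cases hyM : y ∈ M
      · simp only [hyM, if_true]; exact hgu y ⟨hy, hyM⟩
      · simp only [hyM, if_false]; exact Set.mem_univ _)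
  refine ⟨g, contMDiff_iff_contDiff.1 g.contMDiff, fun y hy => ?_, fun y => (hg y).2⟩
  have := (hg y).1
  simpa only [hy, if_true, Set.mem_singleton_iff] using this

/-- **global smooth extension** from a closed set. -/
theorem exists_contDiff_extension {M : Set V} {u : V → F} (hM : IsClosed M) (hu : LocExt M u) :
    ∃ g : V → F, ContDiff ℝ ∞ g ∧ Set.EqOn g u M := by
  obtain ⟨g, hg, he, -⟩ := exists_contDiff_extension_convex (u := u) (t := fun _ => Set.univ)
    (fun _ => convex_univ) hM (fun x => by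
      by_cases hx : x ∈ M
      · obtain ⟨O, hO, g, hg, hgu⟩ := hu x hx
        exact ⟨O, hO, g, hg, hgu, fun _ _ => Set.mem_univ _⟩
      · exact ⟨Mᶜ, hM.isOpen_compl.mem_nhds hx, fun _ => 0, contDiffOn_const,
          fun y hy => absurd hy.2 hy.1, fun _ _ => Set.mem_univ _⟩)
  exact ⟨g, hg, he⟩

theorem fl_mem_of_locInt_aux {M : Set V} {Y : V → V} (hM : IsClosed M) (hY : ContDiff ℝ 1 Y)
    (hint : LocInt M Y) {t : ℝ} (ht : 0 ≤ t) {x : V} (hx : x ∈ M) (h : (t, x) ∈ dom Y Set.univ) :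
    fl Y Set.univ t x ∈ M := by
  have hYo : ContDiffOn ℝ 1 Y Set.univ := hY.contDiffOn
  have hdom : ∀ r ∈ Set.Icc 0 t, (r, x) ∈ dom Y Set.univ := fun r hr =>
    mem_dom_of_mem_uIcc h (by rwa [Set.uIcc_of_le ht])
  have hcont : ContinuousOn (fun r => fl Y Set.univ r x) (Set.Icc 0 t) := fun r hr =>
    (ODE.hasDerivAt_fl isOpen_univ hYo (hdom r hr)).continuousAt.continuousWithinAt
  have hcl : IsClosed ({r | fl Y Set.univ r x ∈ M} ∩ Set.Icc 0 t) := by
    have := hcont.preimage_isClosed_of_isClosed isClosed_Icc hM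
    rwa [Set.inter_comm] at this
  have hsub : Set.Icc 0 t ⊆ {r | fl Y Set.univ r x ∈ M} := by
    refine hcl.Icc_subset_of_forall_mem_nhdsWithin ?_ ?_
    · show fl Y Set.univ 0 x ∈ M
      rw [fl_zero]; exact hx
    · rintro r ⟨hrM, hr⟩
      obtain ⟨ε, hε, c, h0, hc⟩ := hint _ hrM
      have hIoo : Set.Ioo r (r + ε) ∈ 𝓝[>] r := Ioo_mem_nhdsGT (by linarith)
      refine Filter.mem_of_superset hIoo fun r' hr' => ?_
      have hs : r' - r ∈ Set.Ioo (-ε) ε := ⟨by linarith [hr'.1], by linarith [hr'.2]⟩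
      have h1 := ODE.eq_fl_of_hasDerivWithinAt isOpen_univ hYo (J := Set.Ioo (-ε) ε)
        Set.ordConnected_Ioo (c := c)
        (fun q hq => ⟨Set.mem_univ _, (hc q hq).2.hasDerivWithinAt⟩) (t₀ := 0) (t := r' - r)
        ⟨by linarith, hε⟩ hs
      rw [sub_zero, h0] at h1
      have h2 := ODE.fl_add isOpen_univ hYo (hdom r ⟨hr.1, hr.2.le⟩) h1.1
      rw [sub_add_cancel] at h2
      show fl Y Set.univ r' x ∈ M
      rw [h2.2, h1.2]
      exact (hc _ hs).1
  exact hsub ⟨ht, le_rfl⟩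

/-- **invariance**: the flow of a `C^1` field on `V` with local integral curves inside the closed
set `M` preserves `M`. -/
theorem fl_mem_of_locInt {M : Set V} {Y : V → V} (hM : IsClosed M) (hY : ContDiff ℝ 1 Y)
    (hint : LocInt M Y) {t : ℝ} {x : V} (hx : x ∈ M) (h : (t, x) ∈ dom Y Set.univ) :
    fl Y Set.univ t x ∈ M := by
  rcases le_total 0 t with ht | ht
  · exact fl_mem_of_locInt_aux hM hY hint ht hx h
  · have h1 : (-t, x) ∈ dom (fun y => (-1 : ℝ) • Y y) Set.univ := by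
      rw [mem_dom_smul]; simpa using h
    have h2 := fl_mem_of_locInt_aux hM (hY.const_smul (-1 : ℝ)) (hint.smul (-1)) (by linarith) hx h1
    rw [ODE.fl_smul isOpen_univ hY.contDiffOn] at h2
    simpa using h2

namespace TanField

variable {M : Set V} {X : V → V} {t s : ℝ} {x : V}

/-- **transfer**: the flow of `X` in `M` is the restriction of the flow of a smooth field on `V`. -/
theorem exists_ambient (hX : TanField M X) :
    ∃ Y : V → V, ContDiff ℝ ∞ Y ∧ Set.EqOn Y X M ∧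
      ∀ (t : ℝ), ∀ x ∈ M, ((t, x) ∈ dom X M ↔ (t, x) ∈ dom Y Set.univ) ∧
        fl X M t x = fl Y Set.univ t x := by
  obtain ⟨Y, hY, he⟩ := exists_contDiff_extension hX.closed hX.ext
  have hY1 : ContDiff ℝ 1 Y := hY.of_le (by exact_mod_cast le_top)
  have hint : LocInt M Y := hX.int.congr he
  refine ⟨Y, hY, he, fun t x hx => ?_⟩
  have hiff : (t, x) ∈ dom X M ↔ (t, x) ∈ dom Y Set.univ := by
    constructor
    · rintro ⟨c, hc⟩
      exact ⟨c, isSol_univ_of_isSol he hc⟩
    · rintro ⟨c, hc⟩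
      have hcM : ∀ r ∈ Set.uIcc 0 t, c r ∈ M := fun r hr => by
        have h1 := hc.fl_eq isOpen_univ hY1.contDiffOn r hr
        rw [← h1.2]
        exact fl_mem_of_locInt hX.closed hY1 hint hx h1.1
      exact ⟨c, hc.1, fun r hr => ⟨hcM r hr, by rw [← he (hcM r hr)]; exact (hc.2 r hr).2⟩⟩
  refine ⟨hiff, ?_⟩
  by_cases h : (t, x) ∈ dom X M
  · obtain ⟨c, hc, hfl⟩ := dom_spec h
    rw [hfl, ((isSol_univ_of_isSol he hc).fl_eq isOpen_univ hY1.contDiffOn t Set.right_mem_uIcc).2]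
  · rw [fl_of_not_mem h, fl_of_not_mem (fun h' => h (hiff.2 h'))]

theorem smul (hX : TanField M X) (a : ℝ) : TanField M (fun y => a • X y) :=
  ⟨hX.closed, hX.ext.smul a, hX.int.smul a⟩

/-- two solutions in `M` coincide. -/
theorem eqOn (hX : TanField M X) {c₁ c₂ : ℝ → V} (h₁ : IsSol X M t x c₁) (h₂ : IsSol X M t x c₂) :
    Set.EqOn c₁ c₂ (Set.uIcc 0 t) := by
  obtain ⟨Y, hY, he, -⟩ := hX.exists_ambient
  exact (isSol_univ_of_isSol he h₁).eqOn isOpen_univ
    (hY.of_le (by exact_mod_cast le_top)).contDiffOn (isSol_univ_of_isSol he h₂)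

/-- a solution in `M` is the flow line. -/
theorem fl_eq (hX : TanField M X) {c : ℝ → V} (h : IsSol X M t x c) :
    ∀ s ∈ Set.uIcc 0 t, (s, x) ∈ dom X M ∧ fl X M s x = c s := by
  intro s hs
  have hd : (s, x) ∈ dom X M := ⟨c, h.mono hs⟩
  obtain ⟨c', hc', he⟩ := dom_spec hd
  exact ⟨hd, he.trans (hX.eqOn hc' (h.mono hs) Set.right_mem_uIcc)⟩

/-- the domain is relatively open and the flow is the restriction of a smooth ambient map. -/
theorem exists_contDiffOn (hX : TanField M X) :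
    ∃ (D : Set (ℝ × V)) (G : ℝ × V → V), IsOpen D ∧ ContDiffOn ℝ ∞ G D ∧
      dom X M = D ∩ (Set.univ ×ˢ M) ∧ ∀ p ∈ dom X M, fl X M p.1 p.2 = G p := by
  obtain ⟨Y, hY, he, hYX⟩ := hX.exists_ambient
  have hY1 : ContDiffOn ℝ 1 Y Set.univ := (hY.of_le (by exact_mod_cast le_top)).contDiffOn
  refine ⟨dom Y Set.univ, fun p => fl Y Set.univ p.1 p.2, isOpen_dom isOpen_univ hY1,
    contDiffOn_fl_infty isOpen_univ hY.contDiffOn, ?_, ?_⟩
  · ext ⟨t, x⟩
    constructor
    · intro h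
      have hx : x ∈ M := mem_of_mem_dom h
      exact ⟨((hYX t x hx).1).1 h, Set.mem_univ _, hx⟩
    · rintro ⟨h, -, hx⟩
      exact ((hYX t x hx).1).2 h
  · rintro ⟨t, x⟩ h
    exact (hYX t x (mem_of_mem_dom h)).2

theorem continuousOn_fl (hX : TanField M X) :
    ContinuousOn (fun p : ℝ × V => fl X M p.1 p.2) (dom X M) := by
  obtain ⟨D, G, -, hG, hD, hfl⟩ := hX.exists_contDiffOn
  refine (hG.continuousOn.mono ?_).congr hfl
  rw [hD]
  exact Set.inter_subset_left

/-- nearby points of `M` and nearby times stay in the domain. -/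
theorem eventually_mem_dom (hX : TanField M X) (h : (t, x) ∈ dom X M) :
    ∀ᶠ p in 𝓝[Set.univ ×ˢ M] (t, x), p ∈ dom X M := by
  obtain ⟨D, G, hDo, -, hD, -⟩ := hX.exists_contDiffOn
  have htx : (t, x) ∈ D := by
    rw [hD] at h
    exact h.1
  filter_upwards [mem_nhdsWithin_of_mem_nhds (hDo.mem_nhds htx), self_mem_nhdsWithin] with p h1 h2
  rw [hD]
  exact ⟨h1, h2⟩

theorem hasDerivAt_fl (hX : TanField M X) (h : (t, x) ∈ dom X M) :
    HasDerivAt (fun r => fl X M r x) (X (fl X M t x)) t := by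
  obtain ⟨Y, hY, he, hYX⟩ := hX.exists_ambient
  have hY1 : ContDiffOn ℝ 1 Y Set.univ := (hY.of_le (by exact_mod_cast le_top)).contDiffOn
  have hx : x ∈ M := mem_of_mem_dom h
  have hfun : (fun r => fl X M r x) = fun r => fl Y Set.univ r x := funext fun r => (hYX r x hx).2
  rw [← he (fl_mem h), hfun, (hYX t x hx).2]
  exact ODE.hasDerivAt_fl isOpen_univ hY1 ((hYX t x hx).1.1 h)

/-- the flow lines are smooth curves. -/
theorem contDiffAt_fl (hX : TanField M X) (h : (t, x) ∈ dom X M) :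
    ContDiffAt ℝ ∞ (fun r => fl X M r x) t := by
  obtain ⟨Y, hY, he, hYX⟩ := hX.exists_ambient
  have hY1 : ContDiffOn ℝ 1 Y Set.univ := (hY.of_le (by exact_mod_cast le_top)).contDiffOn
  have hx : x ∈ M := mem_of_mem_dom h
  have hfun : (fun r => fl X M r x) = fun r => fl Y Set.univ r x := funext fun r => (hYX r x hx).2
  rw [hfun]
  have h1 : ContDiffAt ℝ ∞ (fun p : ℝ × V => fl Y Set.univ p.1 p.2) (t, x) :=
    (contDiffOn_fl_infty isOpen_univ hY.contDiffOn).contDiffAt
      ((isOpen_dom isOpen_univ hY1).mem_nhds ((hYX t x hx).1.1 h))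
  have h2 : ContDiffAt ℝ ∞ (fun r : ℝ => (r, x)) t := contDiffAt_id.prodMk contDiffAt_const
  exact ContDiffAt.comp t (g := fun p : ℝ × V => fl Y Set.univ p.1 p.2) h1 h2

/-- the time interval of a flow line is open. -/
theorem isOpen_times (hX : TanField M X) (x : V) : IsOpen {r : ℝ | (r, x) ∈ dom X M} := by
  by_cases hx : x ∈ M
  · obtain ⟨Y, hY, he, hYX⟩ := hX.exists_ambient
    have hY1 : ContDiffOn ℝ 1 Y Set.univ := (hY.of_le (by exact_mod_cast le_top)).contDiffOn
    have hset : {r : ℝ | (r, x) ∈ dom X M} = (fun r : ℝ => (r, x)) ⁻¹' dom Y Set.univ := by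
      ext r
      exact (hYX r x hx).1
    rw [hset]
    exact (isOpen_dom isOpen_univ hY1).preimage (Continuous.prodMk_left x)
  · have hset : {r : ℝ | (r, x) ∈ dom X M} = ∅ := by
      ext r
      simp only [Set.mem_ofPred_eq, Set.mem_empty_iff_false, iff_false]
      exact fun h => hx (mem_of_mem_dom h)
    rw [hset]
    exact isOpen_empty

theorem ordConnected_times (x : V) : {r : ℝ | (r, x) ∈ dom X M}.OrdConnected := by
  refine ⟨fun a ha b hb r hr => ?_⟩
  rcases le_total 0 r with h0 | h0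
  · exact mem_dom_of_mem_uIcc hb (by rw [Set.uIcc_of_le (h0.trans hr.2)]; exact ⟨h0, hr.2⟩)
  · exact mem_dom_of_mem_uIcc ha (by rw [Set.uIcc_of_ge (hr.1.trans h0)]; exact ⟨hr.1, h0⟩)

theorem fl_add (hX : TanField M X) (h : (t, x) ∈ dom X M) (h' : (s, fl X M t x) ∈ dom X M) :
    (s + t, x) ∈ dom X M ∧ fl X M (s + t) x = fl X M s (fl X M t x) := by
  obtain ⟨Y, hY, he, hYX⟩ := hX.exists_ambient
  have hY1 : ContDiffOn ℝ 1 Y Set.univ := (hY.of_le (by exact_mod_cast le_top)).contDiffOn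
  have hx : x ∈ M := mem_of_mem_dom h
  have hy : fl X M t x ∈ M := fl_mem h
  have h1 := (hYX t x hx).1.1 h
  have h2 := (hYX s _ hy).1.1 h'
  rw [(hYX s _ hy).2, (hYX (s + t) x hx).2, (hYX (s + t) x hx).1]
  rw [(hYX t x hx).2] at h2 ⊢
  exact ODE.fl_add isOpen_univ hY1 h1 h2

theorem mem_dom_fl (hX : TanField M X) (h : (t, x) ∈ dom X M) (h' : (s + t, x) ∈ dom X M) :
    (s, fl X M t x) ∈ dom X M := by
  obtain ⟨Y, hY, he, hYX⟩ := hX.exists_ambient
  have hY1 : ContDiffOn ℝ 1 Y Set.univ := (hY.of_le (by exact_mod_cast le_top)).contDiffOn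
  have hx : x ∈ M := mem_of_mem_dom h
  have hy : fl X M t x ∈ M := fl_mem h
  rw [(hYX s _ hy).1, (hYX t x hx).2]
  exact ODE.mem_dom_fl isOpen_univ hY1 ((hYX t x hx).1.1 h) ((hYX _ x hx).1.1 h')

theorem fl_neg (hX : TanField M X) (h : (t, x) ∈ dom X M) :
    (-t, fl X M t x) ∈ dom X M ∧ fl X M (-t) (fl X M t x) = x := by
  have h0 : (-t + t, x) ∈ dom X M := by
    rw [neg_add_cancel]; exact zero_mem_dom.2 (mem_of_mem_dom h)
  have h1 := hX.mem_dom_fl h h0
  refine ⟨h1, ?_⟩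
  have h2 := (hX.fl_add h h1).2
  rw [neg_add_cancel, fl_zero] at h2
  exact h2.symm

theorem eq_fl_of_hasDerivWithinAt (hX : TanField M X) {J : Set ℝ} (hJ : J.OrdConnected)
    {c : ℝ → V} (hc : ∀ r ∈ J, c r ∈ M ∧ HasDerivWithinAt c (X (c r)) J r) {t₀ : ℝ} (ht₀ : t₀ ∈ J)
    (ht : t ∈ J) : (t - t₀, c t₀) ∈ dom X M ∧ fl X M (t - t₀) (c t₀) = c t := by
  obtain ⟨Y, hY, he, hYX⟩ := hX.exists_ambient
  have hY1 : ContDiffOn ℝ 1 Y Set.univ := (hY.of_le (by exact_mod_cast le_top)).contDiffOn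
  have h1 := ODE.eq_fl_of_hasDerivWithinAt isOpen_univ hY1 hJ (c := c)
    (fun r hr => ⟨Set.mem_univ _, by rw [he (hc r hr).1]; exact (hc r hr).2⟩) ht₀ ht
  have h0 : c t₀ ∈ M := (hc t₀ ht₀).1
  rw [(hYX _ _ h0).1, (hYX _ _ h0).2]
  exact h1

theorem fl_smul (hX : TanField M X) (a : ℝ) : fl (fun y => a • X y) M t x = fl X M (a * t) x := by
  by_cases h : (a * t, x) ∈ dom X M
  · obtain ⟨c, hc, he⟩ := dom_spec h
    have h2 := (hX.smul a).fl_eq (hc.smul a) t Set.right_mem_uIcc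
    rw [h2.2, he]
  · rw [fl_of_not_mem h, fl_of_not_mem (fun h' => h ((mem_dom_smul a).1 h'))]

/-- continuation. -/
theorem mem_dom_of_frequently_mem (hX : TanField M X) {T : ℝ} (hT : 0 < T)
    (h1 : ∀ r ∈ Set.Ico 0 T, (r, x) ∈ dom X M) {K : Set V} (hK : IsCompact K)
    (h2 : ∃ᶠ r in 𝓝[<] T, fl X M r x ∈ K) : (T, x) ∈ dom X M := by
  obtain ⟨Y, hY, he, hYX⟩ := hX.exists_ambient
  have hY1 : ContDiffOn ℝ 1 Y Set.univ := (hY.of_le (by exact_mod_cast le_top)).contDiffOn
  have hx : x ∈ M := mem_of_mem_dom (h1 0 ⟨le_rfl, hT⟩)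
  rw [(hYX T x hx).1]
  refine ODE.mem_dom_of_frequently_mem isOpen_univ hY1 hT (fun r hr => (hYX r x hx).1.1 (h1 r hr))
    hK (Set.subset_univ _) (h2.mono fun r hr => ?_)
  rw [← (hYX r x hx).2]
  exact hr

/-- escape lemma: a flow line with finite maximal time leaves every compact set. -/
theorem escape (hX : TanField M X) {T : ℝ} (hT : 0 < T)
    (h1 : ∀ r ∈ Set.Ico 0 T, (r, x) ∈ dom X M) (h2 : (T, x) ∉ dom X M)
    {K : Set V} (hK : IsCompact K) : ∃ t₀ ∈ Set.Ico 0 T, ∀ r ∈ Set.Ioo t₀ T, fl X M r x ∉ K := by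
  obtain ⟨Y, hY, he, hYX⟩ := hX.exists_ambient
  have hY1 : ContDiffOn ℝ 1 Y Set.univ := (hY.of_le (by exact_mod_cast le_top)).contDiffOn
  have hx : x ∈ M := mem_of_mem_dom (h1 0 ⟨le_rfl, hT⟩)
  obtain ⟨t₀, ht₀, h3⟩ := ODE.escape isOpen_univ hY1 hT (fun r hr => (hYX r x hx).1.1 (h1 r hr))
    (fun h => h2 ((hYX T x hx).1.2 h)) hK (Set.subset_univ _)
  refine ⟨t₀, ht₀, fun r hr => ?_⟩
  rw [(hYX r x hx).2]
  exact h3 r hr

/-- a priori bound ⇒ existence (`T` of any sign). -/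
theorem mem_dom_of_apriori (hX : TanField M X) {T : ℝ} (hx : x ∈ M) {K : Set V} (hK : IsCompact K)
    (h : ∀ r ∈ Set.uIcc 0 T, (r, x) ∈ dom X M → fl X M r x ∈ K) : (T, x) ∈ dom X M := by
  obtain ⟨Y, hY, he, hYX⟩ := hX.exists_ambient
  have hY1 : ContDiffOn ℝ 1 Y Set.univ := (hY.of_le (by exact_mod_cast le_top)).contDiffOn
  rw [(hYX T x hx).1]
  refine ODE.mem_dom_of_apriori isOpen_univ hY1 (Set.mem_univ _) hK (Set.subset_univ _)
    fun r hr hd => ?_
  rw [← (hYX r x hx).2]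
  exact h r hr ((hYX r x hx).1.2 hd)

/-- uniform existence time on compact sets. -/
theorem exists_pos_forall_mem_dom (hX : TanField M X) {K : Set V} (hK : IsCompact K)
    (hKM : K ⊆ M) : ∃ ε > 0, ∀ y ∈ K, ∀ r : ℝ, |r| ≤ ε → (r, y) ∈ dom X M := by
  obtain ⟨Y, hY, he, hYX⟩ := hX.exists_ambient
  have hY1 : ContDiffOn ℝ 1 Y Set.univ := (hY.of_le (by exact_mod_cast le_top)).contDiffOn
  obtain ⟨ε, hε, h⟩ := ODE.exists_pos_forall_mem_dom isOpen_univ hY1 hK (Set.subset_univ _)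
  exact ⟨ε, hε, fun y hy r hr => (hYX r y (hKM hy)).1.2 (h y hy r hr)⟩

/-- naturality: a map `θ` from an open subset `Ω` of a Banach space into `M` which relates the
field `f` on `Ω` to `X` maps flow lines to flow lines. -/
theorem fl_map (hX : TanField M X) {E : Type*} [NormedAddCommGroup E] [NormedSpace ℝ E]
    {f : E → E} {Ω : Set E} {θ : E → V} {θ' : E → E →L[ℝ] V}
    (hθ : ∀ y ∈ Ω, HasFDerivAt θ (θ' y) y) (hmap : Set.MapsTo θ Ω M)
    (hrel : ∀ y ∈ Ω, θ' y (f y) = X (θ y)) {z : E} (h : (t, z) ∈ dom f Ω) :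
    (t, θ z) ∈ dom X M ∧ fl X M t (θ z) = θ (fl f Ω t z) := by
  obtain ⟨c, hc, he⟩ := dom_spec h
  have hc' : IsSol X M t (θ z) (fun r => θ (c r)) := by
    refine ⟨by simp [hc.1], fun r hr => ⟨hmap (hc.2 r hr).1, ?_⟩⟩
    rw [← hrel _ (hc.2 r hr).1]
    exact (hθ _ (hc.2 r hr).1).comp_hasDerivWithinAt r (hc.2 r hr).2
  have := hX.fl_eq hc' t Set.right_mem_uIcc
  rw [he]
  exact this

/-- restriction to a subset: a flow line of `X` in `M` which stays in `M'` is a flow line in `M'`. -/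
theorem mem_dom_of_forall_mem (hX : TanField M X) {M' : Set V} (hsub : M' ⊆ M)
    (h : (t, x) ∈ dom X M) (h' : ∀ r ∈ Set.uIcc 0 t, fl X M r x ∈ M') :
    (t, x) ∈ dom X M' ∧ fl X M' t x = fl X M t x := by
  obtain ⟨c, hc⟩ := h
  have hd : (t, x) ∈ dom X M' := by
    refine ⟨c, hc.1, fun r hr => ⟨?_, (hc.2 r hr).2⟩⟩
    rw [← (hX.fl_eq hc r hr).2]
    exact h' r hr
  refine ⟨hd, ?_⟩
  obtain ⟨c', hc', he⟩ := dom_spec hd
  have hc'' : IsSol X M t x c' := ⟨hc'.1, fun r hr => ⟨hsub (hc'.2 r hr).1, (hc'.2 r hr).2⟩⟩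
  rw [he, (hX.fl_eq hc'' t Set.right_mem_uIcc).2]

end TanField

end fd

end Claimed.Agent.R316.Tub
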